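import Vale.Agent.P158.T1.RobustAE

/-! Branch points. -/

namespace Vale.Agent.P158.C

open Filter T1

/-- `p` is a branch point: there are two different neighbours `q`, `q'` of `p` such that, outside
of every finite set, there are `x`, `x'`, `y` for which `x → q → p → y` and `x' → q' → p → y` are
geodesic. -/
def Br (w : V → V → ℝ) (p : V) : Prop :=
  ∃ q q' : V, latt.Adj q p ∧ latt.Adj q' p ∧ q ≠ q' ∧ ∀ F : Set V, F.Finite →
    ∃ x x' y : V, x ∉ F ∧ x' ∉ F ∧ y ∉ F ∧ T w x y = T w x q + w q p + T w p y ∧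
      T w x' y = T w x' q' + w q' p + T w p y

/-- Far points of a bigeodesic leave every finite set. -/
theorem exists_out {w : V → V → ℝ} (hw : Adm w) {v : ℤ → V} (hv : IsBi w v) {F : Set V}
    (hF : F.Finite) : ∃ N : ℤ, ∀ n : ℤ, (n ≤ -N ∨ N ≤ n) → v n ∉ F := by
  have hinj := isBi_inj hw hv
  have h1 : (v ⁻¹' F).Finite := hF.preimage hinj.injOn
  obtain ⟨N, hN⟩ : ∃ N : ℤ, ∀ n ∈ v ⁻¹' F, |n| < N := by
    obtain ⟨N, hN⟩ := (h1.image fun n => |n|).bddAbove
    exact ⟨N + 1, fun n hn => by have := hN ⟨n, hn, rfl⟩; simp only at this; omega⟩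
  refine ⟨N, fun n hn hnF => ?_⟩
  have := hN n hnF
  rw [abs_lt] at this
  omega

/-- Two bigeodesics which share a ray but come from different neighbours form a branch point. -/
theorem br_of_isBi {w : V → V → ℝ} (hw : Adm w) {v v' : ℤ → V} (hv : IsBi w v)
    (hv' : IsBi w v') (h : ∀ i : ℤ, 0 ≤ i → v i = v' i) (hne : v (-1) ≠ v' (-1)) :
    Br w (v 0) := by
  have h0 : v 0 = v' 0 := h 0 le_rfl
  have a1 : latt.Adj (v (-1)) (v 0) := by simpa using isBi_adj hv (-1)
  have a2 : latt.Adj (v' (-1)) (v 0) := by rw [h0]; simpa using isBi_adj hv' (-1)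
  refine ⟨v (-1), v' (-1), a1, a2, hne, fun F hF => ?_⟩
  obtain ⟨N, hN⟩ := exists_out hw hv hF
  obtain ⟨N', hN'⟩ := exists_out hw hv' hF
  obtain ⟨M, hM1, hM2, hM3⟩ : ∃ M : ℤ, N ≤ M ∧ N' ≤ M ∧ 1 ≤ M :=
    ⟨max N (max N' 1), by omega, by omega, by omega⟩
  have key : ∀ u : ℤ → V, IsBi w u →
      T w (u (-M)) (u M) = T w (u (-M)) (u (-1)) + w (u (-1)) (u 0) + T w (u 0) (u M) := by
    intro u hu
    obtain ⟨P, hP⟩ := exists_posF w u
    rw [isBi_T hu hP (by omega), isBi_T hu hP (by omega), isBi_T hu hP (by omega)]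
    have := hP (-1)
    simp only [neg_add_cancel] at this
    linarith
  refine ⟨v (-M), v' (-M), v M, hN _ (Or.inl (by omega)), hN' _ (Or.inl (by omega)),
    hN _ (Or.inr (by omega)), key v hv, ?_⟩
  rw [h M (by omega), h0]
  exact key v' hv'

end Vale.Agent.P158.C
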