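import Vale.Agent.P158.T1.PlanB

/-! Cyclic enumeration of the boundary of a box. -/

namespace Vale.Agent.P158.C

open Vale.Agent.P158.T1

/-- The boundary of the box of radius `n` about the origin, as a function of the arc length
`m ∈ [0, 8 n)`, counter-clockwise from the lower right corner. -/
def bdr (n m : ℤ) : V :=
  if m < 2 * n then (n, m - n)
  else if m < 4 * n then (3 * n - m, n)
  else if m < 6 * n then (-n, 5 * n - m)
  else (m - 7 * n, -n)

/-- Cyclic counter-clockwise enumeration of the boundary of `bx z n`, of period `8 n`. -/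
def bd (z : V) (n : ℕ) (k : ℤ) : V := z + bdr n (k % (8 * n))

/-- The boundary of the box. -/
def bB (z : V) (n : ℕ) : Set V := {x | x ∈ bx z n ∧ (|x.1 - z.1| = n ∨ |x.2 - z.2| = n)}

theorem bd_add_period (z : V) (n : ℕ) (k : ℤ) : bd z n (k + 8 * n) = bd z n k := by
  unfold bd
  rw [Int.add_emod_right]

theorem bd_add_mul_period (z : V) (n : ℕ) (k c : ℤ) : bd z n (k + 8 * n * c) = bd z n k := by
  unfold bd
  rw [Int.add_mul_emod_self_left]

theorem bd_emod (z : V) (n : ℕ) (k : ℤ) : bd z n (k % (8 * n)) = bd z n k := by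
  unfold bd
  rw [Int.emod_emod_of_dvd _ dvd_rfl]

theorem bd_translate (z u : V) (n : ℕ) (k : ℤ) : bd (z + u) n k = bd z n k + u := by
  unfold bd
  rw [add_right_comm]

theorem bdr_mem {n : ℕ} {m : ℤ} (h0 : 0 ≤ m) (h1 : m ≤ 8 * n) :
    |(bdr n m).1| ≤ n ∧ |(bdr n m).2| ≤ n ∧ (|(bdr n m).1| = n ∨ |(bdr n m).2| = n) := by
  unfold bdr
  have hn : (0 : ℤ) ≤ n := by positivity
  split_ifs with a b c
  · refine ⟨by simp, ?_, Or.inl (by simp)⟩
    simp only [abs_le]; constructor <;> linarith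
  · refine ⟨?_, by simp, Or.inr (by simp)⟩
    simp only [abs_le]; constructor <;> linarith
  · refine ⟨by simp, ?_, Or.inl (by simp)⟩
    simp only [abs_le]; constructor <;> linarith
  · refine ⟨?_, by simp, Or.inr (by simp)⟩
    simp only [abs_le]; constructor <;> linarith

theorem emod_bound {n : ℕ} (hn : 0 < n) (k : ℤ) : 0 ≤ k % (8 * (n : ℤ)) ∧
    k % (8 * (n : ℤ)) < 8 * n := by
  have : (0 : ℤ) < 8 * n := by positivity
  exact ⟨Int.emod_nonneg _ this.ne', Int.emod_lt_of_pos _ this⟩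

theorem bd_mem_bB {z : V} {n : ℕ} (hn : 0 < n) (k : ℤ) : bd z n k ∈ bB z n := by
  obtain ⟨h1, h2⟩ := emod_bound hn k
  obtain ⟨h3, h4, h5⟩ := bdr_mem h1 h2.le
  unfold bd
  simpa [bB, mem_bx] using ⟨⟨h3, h4⟩, h5⟩

theorem bd_mem_bx {z : V} {n : ℕ} (hn : 0 < n) (k : ℤ) : bd z n k ∈ bx z n :=
  (bd_mem_bB hn k).1

theorem bdr_succ {n m : ℤ} (hn : 0 < n) (h0 : 0 ≤ m) (h1 : m < 8 * n) :
    latt.Adj (bdr n m) (bdr n (m + 1)) := by
  show |(bdr n m).1 - (bdr n (m + 1)).1| + |(bdr n m).2 - (bdr n (m + 1)).2| = 1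
  unfold bdr
  split_ifs <;> first
    | omega
    | (simp only [sub_self, abs_zero, zero_add, add_zero]
       rw [abs_eq (by norm_num)]
       omega)
    | (rw [show m = 2 * n - 1 by omega]
       ring_nf
       norm_num)
    | (rw [show m = 4 * n - 1 by omega]
       ring_nf
       norm_num)
    | (rw [show m = 6 * n - 1 by omega]
       ring_nf
       norm_num)

theorem bdr_period {n : ℤ} (hn : 0 < n) : bdr n (8 * n) = bdr n 0 := by
  unfold bdr
  rw [if_neg (by omega), if_neg (by omega), if_neg (by omega), if_pos (by omega)]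
  ext <;> simp <;> ring

theorem adj_add_left (z x y : V) : latt.Adj (z + x) (z + y) ↔ latt.Adj x y := by
  show |z.1 + x.1 - (z.1 + y.1)| + |z.2 + x.2 - (z.2 + y.2)| = 1 ↔ _
  rw [add_sub_add_left_eq_sub, add_sub_add_left_eq_sub]
  rfl

/-- Consecutive boundary vertices are adjacent. -/
theorem bd_adj {z : V} {n : ℕ} (hn : 0 < n) (k : ℤ) : latt.Adj (bd z n k) (bd z n (k + 1)) := by
  have hn' : (0 : ℤ) < n := by exact_mod_cast hn
  obtain ⟨h1, h2⟩ := emod_bound hn k
  have h3 := bdr_succ hn' h1 h2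
  unfold bd
  rw [adj_add_left]
  have h4 : bdr n ((k + 1) % (8 * n)) = bdr n (k % (8 * n) + 1) := by
    rw [Int.add_emod]
    rcases eq_or_lt_of_le (Int.add_one_le_iff.2 h2) with h | h
    · rw [h, bdr_period hn']
      have h5 : (1 : ℤ) % (8 * n) = 1 := Int.emod_eq_of_lt (by norm_num) (by linarith)
      rw [h5, h, Int.emod_self]
    · have h5 : (1 : ℤ) % (8 * n) = 1 := Int.emod_eq_of_lt (by norm_num) (by linarith)
      rw [h5, Int.emod_eq_of_lt (by linarith) h]
  rw [h4]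
  exact h3

theorem bdr_inj {n i j : ℤ} (hn : 0 < n) (hi0 : 0 ≤ i) (hi : i < 8 * n) (hj0 : 0 ≤ j)
    (hj : j < 8 * n) (h : bdr n i = bdr n j) : i = j := by
  unfold bdr at h
  rw [Prod.ext_iff] at h
  split_ifs at h <;> simp only at h <;> omega

/-- Injectivity on a period. -/
theorem bd_inj {z : V} {n : ℕ} (hn : 0 < n) {i j : ℤ} :
    bd z n i = bd z n j ↔ i % (8 * n) = j % (8 * n) := by
  have hn' : (0 : ℤ) < n := by exact_mod_cast hn
  obtain ⟨h1, h2⟩ := emod_bound hn i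
  obtain ⟨h3, h4⟩ := emod_bound hn j
  constructor
  · intro h
    exact bdr_inj hn' h1 h2 h3 h4 (add_left_cancel h)
  · intro h
    unfold bd
    rw [h]

theorem bd_injOn {z : V} {n : ℕ} (hn : 0 < n) (a : ℤ) :
    Set.InjOn (bd z n) (Set.Ico a (a + 8 * n)) := by
  intro i hi j hj h
  rw [bd_inj hn, Int.emod_eq_emod_iff_emod_sub_eq_zero] at h
  obtain ⟨c, hc⟩ := Int.dvd_of_emod_eq_zero h
  have hn' : (0 : ℤ) < n := by exact_mod_cast hn
  have h1 := hi.1
  have h2 := hi.2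
  have h3 := hj.1
  have h4 := hj.2
  have h5 : c = 0 := by
    by_contra hc0
    rcases lt_or_gt_of_ne hc0 with h6 | h6
    · have : 8 * (n : ℤ) * c ≤ 8 * n * (-1) := by
        apply mul_le_mul_of_nonneg_left (by omega) (by positivity)
      linarith
    · have : 8 * (n : ℤ) * 1 ≤ 8 * n * c := by
        apply mul_le_mul_of_nonneg_left (by omega) (by positivity)
      linarith
  rw [h5] at hc
  linarith

theorem bdr_surj {n : ℤ} (hn : 0 < n) {x : V} (h1 : |x.1| ≤ n) (h2 : |x.2| ≤ n)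
    (h3 : |x.1| = n ∨ |x.2| = n) : ∃ m, 0 ≤ m ∧ m < 8 * n ∧ bdr n m = x := by
  obtain ⟨a, b⟩ := x
  simp only at h1 h2 h3
  rw [abs_le] at h1 h2
  rw [abs_eq hn.le, abs_eq hn.le] at h3
  unfold bdr
  by_cases ha : a = n ∧ b ≠ n
  · refine ⟨b + n, by omega, by omega, ?_⟩
    rw [if_pos (by omega)]
    simp [ha.1]
  · by_cases hb : b = n ∧ a ≠ -n
    · refine ⟨3 * n - a, by omega, by omega, ?_⟩
      rw [if_neg (by omega), if_pos (by omega)]
      simp [hb.1]
    · by_cases hc : a = -n ∧ b ≠ -n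
      · refine ⟨5 * n - b, by omega, by omega, ?_⟩
        rw [if_neg (by omega), if_neg (by omega), if_pos (by omega)]
        simp [hc.1]
      · refine ⟨a + 7 * n, by omega, by omega, ?_⟩
        rw [if_neg (by omega), if_neg (by omega), if_neg (by omega)]
        ext <;> simp
        omega

/-- Every boundary vertex is enumerated. -/
theorem bd_surj {z : V} {n : ℕ} (hn : 0 < n) {x : V} (hx : x ∈ bB z n) (a : ℤ) :
    ∃ k, a ≤ k ∧ k < a + 8 * n ∧ bd z n k = x := by
  have hn' : (0 : ℤ) < n := by exact_mod_cast hn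
  obtain ⟨⟨h1, h2⟩, h3⟩ := hx
  obtain ⟨m, h4, h5, h6⟩ := bdr_surj (x := x - z) hn' h1 h2 h3
  refine ⟨a + (m - a) % (8 * n), ?_, ?_, ?_⟩
  · linarith [(emod_bound hn (m - a)).1]
  · linarith [(emod_bound hn (m - a)).2]
  · unfold bd
    rw [Int.add_emod, Int.emod_emod_of_dvd _ dvd_rfl, ← Int.add_emod, add_sub_cancel,
      Int.emod_eq_of_lt h4 h5, h6]
    abel

theorem exists_bd_iff {z : V} {n : ℕ} (hn : 0 < n) {x : V} :
    (∃ k, bd z n k = x) ↔ x ∈ bB z n := by
  constructor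
  · rintro ⟨k, rfl⟩
    exact bd_mem_bB hn k
  · intro h
    obtain ⟨k, -, -, hk⟩ := bd_surj hn h 0
    exact ⟨k, hk⟩

/-- A vertex of the box with a neighbour outside is on the boundary. -/
theorem mem_bB_of_adj {z x y : V} {n : ℕ} (hx : x ∈ bx z n) (hy : y ∉ bx z n)
    (h : latt.Adj x y) : x ∈ bB z n := by
  refine ⟨hx, ?_⟩
  by_contra hc
  push Not at hc
  obtain ⟨h1, h2⟩ := hx
  have h3 : |x.1 - y.1| + |x.2 - y.2| = 1 := h
  have h5 : |x.1 - z.1| + 1 ≤ n := Int.add_one_le_iff.2 (lt_of_le_of_ne h1 hc.1)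
  have h6 : |x.2 - z.2| + 1 ≤ n := Int.add_one_le_iff.2 (lt_of_le_of_ne h2 hc.2)
  have e1 := abs_nonneg (x.1 - y.1)
  have e2 := abs_nonneg (x.2 - y.2)
  refine hy ⟨?_, ?_⟩
  · calc |y.1 - z.1| ≤ |y.1 - x.1| + |x.1 - z.1| := abs_sub_le _ _ _
      _ ≤ n := by rw [abs_sub_comm y.1 x.1]; linarith
  · calc |y.2 - z.2| ≤ |y.2 - x.2| + |x.2 - z.2| := abs_sub_le _ _ _
      _ ≤ n := by rw [abs_sub_comm y.2 x.2]; linarith

/-- A walk leaving the box meets its boundary; the part before the first exit is in the box. -/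
theorem exists_bB {z : V} {n : ℕ} {x y : V} (p : latt.Walk x y) (hx : x ∈ bx z n)
    (hy : y ∉ bx z n) : ∃ (b : V) (p₁ : latt.Walk x b) (p₂ : latt.Walk b y),
      p = p₁.append p₂ ∧ b ∈ bB z n ∧ ∀ v ∈ p₁.support, v ∈ bx z n := by
  induction p with
  | nil => exact absurd hx hy
  | cons h p ih =>
    rename_i u v w
    by_cases hv : v ∈ bx z n
    · obtain ⟨b, p₁, p₂, h1, h2, h3⟩ := ih hv hy
      refine ⟨b, SimpleGraph.Walk.cons h p₁, p₂, by rw [h1]; rfl, h2, ?_⟩
      intro a ha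
      rw [SimpleGraph.Walk.support_cons, List.mem_cons] at ha
      rcases ha with rfl | ha
      · exact hx
      · exact h3 a ha
    · refine ⟨u, SimpleGraph.Walk.nil, SimpleGraph.Walk.cons h p, rfl, mem_bB_of_adj hx hv h, ?_⟩
      intro a ha
      rw [SimpleGraph.Walk.support_nil, List.mem_singleton] at ha
      rw [ha]
      exact hx

/-- Every walk from inside to the boundary or beyond meets the boundary. -/
theorem exists_mem_bB {z : V} {n : ℕ} {x y : V} (p : latt.Walk x y) (hx : x ∈ bx z n)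
    (hy : y ∉ bx z n) : ∃ b ∈ p.support, b ∈ bB z n := by
  obtain ⟨b, p₁, p₂, rfl, hb, -⟩ := exists_bB p hx hy
  exact ⟨b, by rw [SimpleGraph.Walk.mem_support_append_iff]; exact Or.inl p₁.end_mem_support, hb⟩

end Vale.Agent.P158.C
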