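import Vale.Agent.P158.C.Plan
import Vale.Agent.P158.T1.Peierls3

/-! Ring sums and good boxes: `LenStmt` and `GoodStmt`. -/

set_option linter.all false

namespace Vale.Agent.P158.C.GoodLen

open Filter MeasureTheory Vale.Agent.P158.T1 Vale.Agent.P158.T1.Pe
open scoped ENNReal

variable {G : Measure ℝ} [IsProbabilityMeasure G]

/-! ### A weak law of large numbers, uniform in the finite set of edges -/

theorem tail_small (hG : ∫⁻ s, ENNReal.ofReal s ∂G ≠ ∞) {δ : ℝ} (hδ : 0 < δ) :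
    ∃ K : ℝ, 0 < K ∧ ∫⁻ u, ENNReal.ofReal (u - K) ∂G ≤ ENNReal.ofReal δ := by
  have ht : Tendsto (fun n : ℕ => ∫⁻ u, ENNReal.ofReal (u - n) ∂G) atTop
      (nhds (∫⁻ _, 0 ∂G)) := by
    refine tendsto_lintegral_of_dominated_convergence (fun u => ENNReal.ofReal u)
      (fun n => ENNReal.measurable_ofReal.comp (measurable_id.sub_const _)) (fun n => ?_) hG ?_
    · refine Eventually.of_forall fun u => ENNReal.ofReal_le_ofReal ?_
      have : (0 : ℝ) ≤ n := Nat.cast_nonneg n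
      linarith
    · refine Eventually.of_forall fun u => ?_
      obtain ⟨n₀, hn₀⟩ := exists_nat_ge u
      refine tendsto_const_nhds.congr' ?_
      filter_upwards [eventually_ge_atTop n₀] with n hn
      rw [ENNReal.ofReal_of_nonpos]
      have : (n₀ : ℝ) ≤ n := by exact_mod_cast hn
      linarith
  rw [lintegral_zero] at ht
  obtain ⟨n, hn, hn1⟩ := (((tendsto_order.1 ht).2 _ (ENNReal.ofReal_pos.2 hδ)).and
    (eventually_ge_atTop 1)).exists
  refine ⟨n, by exact_mod_cast hn1, hn.le⟩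

theorem exp_le_lin {x : ℝ} (h0 : 0 ≤ x) (h1 : x ≤ 1) : Real.exp x ≤ 1 + 2 * x := by
  have h := Real.abs_exp_sub_one_le (x := x) (by rw [abs_of_nonneg h0]; exact h1)
  rw [abs_of_nonneg h0] at h
  have := le_abs_self (Real.exp x - 1)
  linarith

/-- the truncated exponential weight -/
noncomputable def phiK (K : ℝ) (u : ℝ) : ℝ≥0∞ := ENNReal.ofReal (Real.exp (min u K / K))

theorem measurable_phiK (K : ℝ) : Measurable (phiK K) := by
  unfold phiK
  exact ENNReal.measurable_ofReal.comp (Real.measurable_exp.comp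
    ((measurable_id.min measurable_const).div_const K))

theorem lintegral_phiK (hG : ∫⁻ s, ENNReal.ofReal s ∂G ≠ ∞) {K : ℝ} (hK : 0 < K) :
    ∫⁻ u, phiK K u ∂G ≤
      ENNReal.ofReal (Real.exp (2 * (∫⁻ s, ENNReal.ofReal s ∂G).toReal / K)) := by
  set m := (∫⁻ s, ENNReal.ofReal s ∂G).toReal with hm
  have hm0 : 0 ≤ m := ENNReal.toReal_nonneg
  have h1 : ∀ u, phiK K u ≤ 1 + ENNReal.ofReal (2 / K) * ENNReal.ofReal u := by
    intro u
    unfold phiK
    rcases le_total u 0 with hu | hu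
    · rw [ENNReal.ofReal_of_nonpos hu, mul_zero, add_zero, ← ENNReal.ofReal_one]
      refine ENNReal.ofReal_le_ofReal (Real.exp_le_one_iff.2 ?_)
      exact div_nonpos_of_nonpos_of_nonneg ((min_le_left _ _).trans hu) hK.le
    · rw [← ENNReal.ofReal_one, ← ENNReal.ofReal_mul (by positivity),
        ← ENNReal.ofReal_add zero_le_one (by positivity)]
      refine ENNReal.ofReal_le_ofReal ?_
      have h2 : 0 ≤ min u K / K := div_nonneg (le_min hu hK.le) hK.le
      have h3 : min u K / K ≤ 1 := (div_le_one hK).2 (min_le_right _ _)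
      refine (exp_le_lin h2 h3).trans ?_
      have h4 : min u K / K ≤ u / K := div_le_div_of_nonneg_right (min_le_left _ _) hK.le
      have h5 : 2 / K * u = 2 * (u / K) := by ring
      rw [h5]
      linarith
  calc ∫⁻ u, phiK K u ∂G ≤ ∫⁻ u, (1 + ENNReal.ofReal (2 / K) * ENNReal.ofReal u) ∂G :=
        lintegral_mono h1
    _ = 1 + ENNReal.ofReal (2 / K) * ENNReal.ofReal m := by
        rw [lintegral_add_left measurable_const, lintegral_const, measure_univ, one_mul,
          lintegral_const_mul _ ENNReal.measurable_ofReal, hm, ENNReal.ofReal_toReal hG]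
    _ = ENNReal.ofReal (1 + 2 / K * m) := by
        rw [← ENNReal.ofReal_one, ← ENNReal.ofReal_mul (by positivity),
          ← ENNReal.ofReal_add zero_le_one (by positivity)]
    _ ≤ _ := by
        refine ENNReal.ofReal_le_ofReal ?_
        have h5 : 2 / K * m = 2 * m / K := by ring
        rw [h5]
        linarith [Real.add_one_le_exp (2 * m / K)]

theorem lln (hG : ∫⁻ s, ENNReal.ofReal s ∂G ≠ ∞) :
    ∃ C₀ : ℝ, 0 < C₀ ∧ ∀ δ : ℝ, 0 < δ → ∃ n₀ : ℕ, ∀ S : Finset latt.edgeSet, n₀ ≤ S.card →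
      PG G {t | C₀ * S.card < ∑ e ∈ S, t e} ≤ ENNReal.ofReal δ := by
  set m := (∫⁻ s, ENNReal.ofReal s ∂G).toReal with hm
  have hm0 : 0 ≤ m := ENNReal.toReal_nonneg
  refine ⟨2 * m + 2, by positivity, fun δ hδ => ?_⟩
  obtain ⟨K, hK, hKt⟩ := tail_small hG (half_pos hδ)
  have hlim : Tendsto (fun n : ℕ => Real.exp (-((n : ℝ) / K))) atTop (nhds 0) :=
    Real.tendsto_exp_neg_atTop_nhds_zero.comp (tendsto_natCast_atTop_atTop.atTop_div_const hK)
  obtain ⟨n₀, hn₀⟩ := Filter.eventually_atTop.1 ((tendsto_order.1 hlim).2 (δ / 2) (half_pos hδ))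
  refine ⟨max n₀ 1, fun S hS => ?_⟩
  set n : ℕ := S.card with hn
  have hn1 : 1 ≤ n := (le_max_right _ _).trans hS
  have hnpos : (0 : ℝ) < n := by exact_mod_cast hn1
  have hn0 : n₀ ≤ n := (le_max_left _ _).trans hS
  -- the tail
  have hA : PG G {t | (n : ℝ) < ∑ e ∈ S, max (t e - K) 0} ≤ ENNReal.ofReal (δ / 2) := by
    have hm1 : ∀ e : latt.edgeSet, Measurable fun t : Env => ENNReal.ofReal (t e - K) := by
      intro e
      have h : Measurable fun t : Env => t e := measurable_pi_apply e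
      exact ENNReal.measurable_ofReal.comp (h.sub_const K)
    have hmeas : Measurable fun t : Env => ∑ e ∈ S, ENNReal.ofReal (t e - K) :=
      Finset.measurable_sum _ fun e _ => hm1 e
    have hint : ∫⁻ t, ∑ e ∈ S, ENNReal.ofReal (t e - K) ∂PG G ≤ n * ENNReal.ofReal (δ / 2) := by
      rw [lintegral_finsetSum _ fun e _ => hm1 e]
      have h1 : ∀ e ∈ S, ∫⁻ t : Env, ENNReal.ofReal (t e - K) ∂PG G ≤ ENNReal.ofReal (δ / 2) := by
        intro e _
        have hmp : MeasurePreserving (fun t : Env => t e) (PG G) G :=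
          measurePreserving_eval_infinitePi (fun _ : latt.edgeSet => G) e
        have := hmp.lintegral_comp (f := fun u => ENNReal.ofReal (u - K))
          (ENNReal.measurable_ofReal.comp (measurable_id.sub_const K))
        rw [this]
        exact hKt
      refine (Finset.sum_le_sum h1).trans ?_
      rw [Finset.sum_const, nsmul_eq_mul]
    have hsub : {t : Env | (n : ℝ) < ∑ e ∈ S, max (t e - K) 0} ⊆
        {t | (n : ℝ≥0∞) ≤ ∑ e ∈ S, ENNReal.ofReal (t e - K)} := by
      intro t ht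
      have ht' : (n : ℝ) < ∑ e ∈ S, max (t e - K) 0 := ht
      show (n : ℝ≥0∞) ≤ ∑ e ∈ S, ENNReal.ofReal (t e - K)
      calc (n : ℝ≥0∞) = ENNReal.ofReal n := (ENNReal.ofReal_natCast n).symm
        _ ≤ ENNReal.ofReal (∑ e ∈ S, max (t e - K) 0) := ENNReal.ofReal_le_ofReal ht'.le
        _ = ∑ e ∈ S, ENNReal.ofReal (max (t e - K) 0) :=
            ENNReal.ofReal_sum_of_nonneg fun e _ => le_max_right _ _
        _ = ∑ e ∈ S, ENNReal.ofReal (t e - K) := by
            refine Finset.sum_congr rfl fun e _ => ?_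
            rcases le_total (t e - K) 0 with h | h
            · rw [max_eq_right h, ENNReal.ofReal_zero, ENNReal.ofReal_of_nonpos h]
            · rw [max_eq_left h]
    refine (measure_mono hsub).trans ?_
    have hn' : (n : ℝ≥0∞) ≠ 0 := by exact_mod_cast (by omega : n ≠ 0)
    refine (meas_ge_le_lintegral_div hmeas.aemeasurable hn' (ENNReal.natCast_ne_top n)).trans ?_
    refine (ENNReal.div_le_div_right hint _).trans ?_
    rw [mul_comm, mul_div_assoc, ENNReal.div_self hn' (ENNReal.natCast_ne_top n), mul_one]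
  -- the truncated part
  have hB : PG G {t | (2 * m + 1) * n < ∑ e ∈ S, min (t e) K} ≤ ENNReal.ofReal (δ / 2) := by
    have hmeas : Measurable fun t : Env => ∏ e ∈ S, phiK K (t e) :=
      Finset.measurable_prod _ fun e _ => (measurable_phiK K).comp (measurable_pi_apply e)
    have hint : ∫⁻ t, ∏ e ∈ S, phiK K (t e) ∂PG G ≤
        ENNReal.ofReal (Real.exp (n * (2 * m / K))) := by
      rw [lintegral_prod_PG S (measurable_phiK K)]
      refine (pow_le_pow_left' (lintegral_phiK hG hK) _).trans (le_of_eq ?_)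
      rw [← ENNReal.ofReal_pow (Real.exp_pos _).le, ← Real.exp_nat_mul]
    have hsub : {t : Env | (2 * m + 1) * n < ∑ e ∈ S, min (t e) K} ⊆
        {t | ENNReal.ofReal (Real.exp ((2 * m + 1) * n / K)) ≤ ∏ e ∈ S, phiK K (t e)} := by
      intro t ht
      have ht' : (2 * m + 1) * n < ∑ e ∈ S, min (t e) K := ht
      show ENNReal.ofReal (Real.exp ((2 * m + 1) * n / K)) ≤ ∏ e ∈ S, phiK K (t e)
      unfold phiK
      rw [← ENNReal.ofReal_prod_of_nonneg fun e _ => (Real.exp_pos _).le, ← Real.exp_sum,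
        ← Finset.sum_div]
      refine ENNReal.ofReal_le_ofReal (Real.exp_le_exp.2 ?_)
      exact div_le_div_of_nonneg_right ht'.le hK.le
    refine (measure_mono hsub).trans ?_
    have hpos : (0 : ℝ) < Real.exp ((2 * m + 1) * n / K) := Real.exp_pos _
    refine (meas_ge_le_lintegral_div hmeas.aemeasurable (by positivity) (by finiteness)).trans ?_
    refine (ENNReal.div_le_div_right hint _).trans ?_
    rw [← ENNReal.ofReal_div_of_pos hpos, ← Real.exp_sub]
    refine ENNReal.ofReal_le_ofReal ?_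
    have h6 : (n : ℝ) * (2 * m / K) - (2 * m + 1) * n / K = -((n : ℝ) / K) := by
      field_simp
      ring
    rw [h6]
    exact (hn₀ n hn0).le
  have hsub : {t : Env | (2 * m + 2) * n < ∑ e ∈ S, t e} ⊆
      {t | (2 * m + 1) * n < ∑ e ∈ S, min (t e) K} ∪ {t | (n : ℝ) < ∑ e ∈ S, max (t e - K) 0} := by
    intro t ht
    have ht' : (2 * m + 2) * n < ∑ e ∈ S, t e := ht
    have hs : ∑ e ∈ S, t e = (∑ e ∈ S, min (t e) K) + ∑ e ∈ S, max (t e - K) 0 := by
      rw [← Finset.sum_add_distrib]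
      refine Finset.sum_congr rfl fun e _ => ?_
      rcases le_total (t e) K with h | h
      · rw [min_eq_left h, max_eq_right (by linarith), add_zero]
      · rw [min_eq_right h, max_eq_left (by linarith)]; ring
    by_contra hnot
    simp only [Set.mem_union, Set.mem_ofPred_eq, not_or, not_lt] at hnot
    obtain ⟨a1, a2⟩ := hnot
    rw [hs] at ht'
    linarith
  calc PG G {t : Env | (2 * m + 2) * n < ∑ e ∈ S, t e} ≤ _ := measure_mono hsub
    _ ≤ ENNReal.ofReal (δ / 2) + ENNReal.ofReal (δ / 2) :=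
        (measure_union_le _ _).trans (add_le_add hB hA)
    _ = ENNReal.ofReal δ := by
        rw [← ENNReal.ofReal_add (by positivity) (by positivity), add_halves]

/-! ### The ring -/

/-- The edges of the boundary cycle. -/
def rg (z : V) {N : ℕ} (hN : 0 < N) (k : ℕ) : latt.edgeSet :=
  ⟨s(bd z N (k : ℤ), bd z N ((k : ℤ) + 1)), bd_adj hN k⟩

theorem rg_injOn (z : V) {N : ℕ} (hN : 0 < N) :
    Set.InjOn (rg z hN) (Finset.range (8 * N) : Set ℕ) := by
  intro k hk l hl h
  rw [Finset.coe_range, Set.mem_Iio] at hk hl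
  have h' : s(bd z N (k : ℤ), bd z N ((k : ℤ) + 1)) = s(bd z N (l : ℤ), bd z N ((l : ℤ) + 1)) :=
    congrArg Subtype.val h
  rw [Sym2.eq_iff] at h'
  rcases h' with ⟨h1, -⟩ | ⟨h1, h2⟩
  · have m1 : (k : ℤ) ∈ Set.Ico (0 : ℤ) (0 + 8 * N) := ⟨by positivity, by omega⟩
    have m2 : (l : ℤ) ∈ Set.Ico (0 : ℤ) (0 + 8 * N) := ⟨by positivity, by omega⟩
    have := bd_injOn (z := z) hN 0 m1 m2 h1
    exact_mod_cast this
  · exfalso
    rw [bd_inj hN] at h1 h2
    have e1 : (8 * (N : ℤ)) ∣ ((k : ℤ) - (l + 1)) := Int.ModEq.dvd (Int.ModEq.symm h1)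
    have e2 : (8 * (N : ℤ)) ∣ ((k : ℤ) + 1 - l) := Int.ModEq.dvd (Int.ModEq.symm h2)
    have e3 := dvd_sub e2 e1
    have e4 : (k : ℤ) + 1 - l - (k - (l + 1)) = 2 := by ring
    rw [e4] at e3
    have := Int.le_of_dvd (by norm_num) e3
    omega

/-- The edges of the boundary cycle, as a finset. -/
noncomputable def ringF (z : V) {N : ℕ} (hN : 0 < N) : Finset latt.edgeSet := by
  classical exact (Finset.range (8 * N)).image (rg z hN)

theorem card_ringF (z : V) {N : ℕ} (hN : 0 < N) : (ringF z hN).card = 8 * N := by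
  classical
  unfold ringF
  rw [Finset.card_image_of_injOn (rg_injOn z hN), Finset.card_range]

theorem rs_eq (t : Env) (z : V) {N : ℕ} (hN : 0 < N) :
    rs (wt t) z N = ∑ e ∈ ringF z hN, t e := by
  classical
  unfold ringF rs
  rw [Finset.sum_image (rg_injOn z hN)]
  refine Finset.sum_congr rfl fun k _ => ?_
  exact wt_eq t (bd_adj hN k)

/-! ### Peierls -/

theorem peierls_box {β : ℝ} (hβ : G (Set.Iio β) ≤ 1 / 16) (z : V) (N ℓ : ℕ) :
    PG G {t | ∃ x ∈ Pe.bxF z N, ∃ (y : V) (p : latt.Walk x y), p.IsPath ∧ ℓ ≤ p.length ∧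
      8 * nh β t (pe p) < p.length} ≤ ENNReal.ofReal ((2 * N + 1) ^ 2 * (8 * (3 / 4) ^ ℓ)) := by
  have hsub : {t : Env | ∃ x ∈ Pe.bxF z N, ∃ (y : V) (p : latt.Walk x y), p.IsPath ∧ ℓ ≤ p.length ∧
      8 * nh β t (pe p) < p.length} ⊆ ⋃ x ∈ Pe.bxF z N, {t | ∃ (y : V) (p : latt.Walk x y),
        p.IsPath ∧ ℓ ≤ p.length ∧ 8 * nh β t (pe p) < p.length} := by
    rintro t ⟨x, hx, h⟩
    rw [Set.mem_iUnion₂]
    exact ⟨x, hx, h⟩
  calc _ ≤ _ := measure_mono hsub
    _ ≤ ∑ x ∈ Pe.bxF z N, PG G {t | ∃ (y : V) (p : latt.Walk x y),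
        p.IsPath ∧ ℓ ≤ p.length ∧ 8 * nh β t (pe p) < p.length} := measure_biUnion_finset_le _ _
    _ ≤ ∑ _x ∈ Pe.bxF z N, ENNReal.ofReal (8 * (3 / 4) ^ ℓ) :=
        Finset.sum_le_sum fun x _ => peierls_tail hβ x ℓ
    _ = _ := by
        rw [Finset.sum_const, Pe.card_bxF, nsmul_eq_mul, ← ENNReal.ofReal_natCast,
          ← ENNReal.ofReal_mul (by positivity)]
        push_cast
        rfl

theorem poly_exp {δ : ℝ} (hδ : 0 < δ) : ∃ N₀ : ℕ, 1 ≤ N₀ ∧ ∀ N ≥ N₀,
    (2 * ((N : ℝ) + 1) + 1) ^ 2 * (8 * (3 / 4) ^ N) ≤ δ := by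
  have h := (tendsto_pow_const_mul_const_pow_of_lt_one 2 (r := 3 / 4) (by norm_num)
    (by norm_num)).const_mul 200
  rw [mul_zero] at h
  obtain ⟨N₀, hN₀⟩ := Filter.eventually_atTop.1 ((tendsto_order.1 h).2 δ hδ)
  refine ⟨max N₀ 1, le_max_right _ _, fun N hN => ?_⟩
  have h1 : (1 : ℝ) ≤ N := by exact_mod_cast (le_max_right _ _).trans hN
  have h2 := (hN₀ N ((le_max_left _ _).trans hN)).le
  refine le_trans ?_ h2
  have h3 : (0 : ℝ) < (3 / 4) ^ N := by positivity
  have h4 : (2 * ((N : ℝ) + 1) + 1) ^ 2 ≤ 25 * (N : ℝ) ^ 2 := by nlinarith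
  calc (2 * ((N : ℝ) + 1) + 1) ^ 2 * (8 * (3 / 4) ^ N) ≤ 25 * (N : ℝ) ^ 2 * (8 * (3 / 4) ^ N) :=
        mul_le_mul_of_nonneg_right h4 (by positivity)
    _ = 200 * ((N : ℝ) ^ 2 * (3 / 4) ^ N) := by ring

/-! ### LenStmt -/

theorem len_of [NullSingletonClass G] (h0 : G (Set.Iio 0) = 0)
    (hmean : ∫⁻ s, ENNReal.ofReal s ∂G ≠ ∞) : LenStmt G := by
  classical
  obtain ⟨β, hβ0, hβ⟩ := exists_level (G := G) h0 (η := 1 / 16) (by norm_num)
  obtain ⟨C₀, hC₀, hlln⟩ := lln hmean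
  refine ⟨max 1 (8 * (16 * C₀ + 1) / β), lt_max_of_lt_left one_pos, fun δ hδ => ?_⟩
  set C₁ : ℝ := max 1 (8 * (16 * C₀ + 1) / β) with hC₁
  have hC1 : 1 ≤ C₁ := le_max_left _ _
  have hC2 : (16 * C₀ + 1) ≤ β * C₁ / 8 := by
    have : 8 * (16 * C₀ + 1) / β ≤ C₁ := le_max_right _ _
    rw [div_le_iff₀ hβ0] at this
    linarith
  obtain ⟨n₀, hn₀⟩ := hlln (δ / 2) (half_pos hδ)
  obtain ⟨N₀, hN1, hN₀⟩ := poly_exp (half_pos hδ)
  refine ⟨max n₀ N₀, fun r hr => ?_⟩
  have hr0 : n₀ ≤ r := (le_max_left _ _).trans hr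
  have hr1 : N₀ ≤ r := (le_max_right _ _).trans hr
  have hr2 : 1 ≤ r := hN1.trans hr1
  have hrpos : (1 : ℝ) ≤ r := by exact_mod_cast hr2
  have hrr : 0 < r + 1 := Nat.succ_pos r
  have h1 := hn₀ (ringF 0 hrr) (by rw [card_ringF]; omega)
  have h2 : PG G {t | ∃ x ∈ Pe.bxF 0 (r + 1), ∃ (y : V) (p : latt.Walk x y), p.IsPath ∧
      r ≤ p.length ∧ 8 * nh β t (pe p) < p.length} ≤ ENNReal.ofReal (δ / 2) := by
    refine (peierls_box hβ 0 (r + 1) r).trans (ENNReal.ofReal_le_ofReal ?_)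
    have := hN₀ r hr1
    push_cast
    exact this
  have h3 : PG G {t | ¬ ∀ e, 0 < t e} = 0 := ae_iff.1 (ae_pos G h0)
  have hsub : {t : Env | ¬ LenE C₁ r t} ⊆ ({t | C₀ * (ringF 0 hrr).card < ∑ e ∈ ringF 0 hrr, t e} ∪
      {t | ∃ x ∈ Pe.bxF 0 (r + 1), ∃ (y : V) (p : latt.Walk x y), p.IsPath ∧
      r ≤ p.length ∧ 8 * nh β t (pe p) < p.length}) ∪ {t | ¬ ∀ e, 0 < t e} := by
    intro t ht
    by_contra hnot
    simp only [Set.mem_union, Set.mem_ofPred_eq, not_or, not_not, not_lt] at hnot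
    obtain ⟨⟨a1, a2⟩, a3⟩ := hnot
    refine ht ?_
    intro x y p hp hx hlen
    have b0 : r ≤ p.length := by
      have : (r : ℝ) ≤ p.length := le_trans (by nlinarith) hlen
      exact_mod_cast this
    have b1 : p.length ≤ 8 * nh β t (pe p) := by
      by_contra hc
      push Not at hc
      exact a2 ⟨x, Pe.mem_bxF.2 hx, y, p, hp, b0, hc⟩
    have b2 := nh_le_ww (β := β) a3 p
    have b3 : (p.length : ℝ) ≤ 8 * nh β t (pe p) := by exact_mod_cast b1
    rw [rs_eq t 0 hrr]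
    rw [card_ringF] at a1
    push_cast at a1
    have b4 : C₀ * (8 * ((r : ℝ) + 1)) ≤ 16 * C₀ * r := by nlinarith
    have b5 : (16 * C₀ + 1) * r ≤ β * C₁ / 8 * r := mul_le_mul_of_nonneg_right hC2 (by linarith)
    have b6 : β * (C₁ * r) ≤ β * (8 * nh β t (pe p)) :=
      mul_le_mul_of_nonneg_left (hlen.trans b3) hβ0.le
    nlinarith
  calc PG G {t : Env | ¬ LenE C₁ r t} ≤ _ := measure_mono hsub
    _ ≤ (ENNReal.ofReal (δ / 2) + ENNReal.ofReal (δ / 2)) + 0 :=
        (measure_union_le _ _).trans (add_le_add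
          ((measure_union_le _ _).trans (add_le_add h1 h2)) h3.le)
    _ = ENNReal.ofReal δ := by
        rw [add_zero, ← ENNReal.ofReal_add (by positivity) (by positivity), add_halves]

/-! ### GoodStmt -/

theorem measurableSet_good (C' C₁ : ℝ) (z : V) (N s : ℕ) :
    MeasurableSet {t | Good C' C₁ z N s t} := by
  classical
  have h1 : MeasurableSet {t : Env | rs (wt t) z N ≤ C' * N} := by
    refine measurableSet_le ?_ measurable_const
    unfold rs
    exact Finset.measurable_sum _ fun k _ => measurable_wt _ _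
  have h2 : {t : Env | Good C' C₁ z N s t} = {t : Env | rs (wt t) z N ≤ C' * N} ∩
      ⋂ (x : V), ⋂ (y : V), ⋂ (p : latt.Walk x y), {t | p.IsPath → (∀ v ∈ p.support, v ∈ bx z N) →
        C₁ * N ≤ p.length → C' * N < ∑ e ∈ (pe p).filter (fun e => e ∉ tF 0 s), t e} := by
    ext t
    simp only [Set.mem_inter_iff, Set.mem_iInter, Set.mem_ofPred_eq]
    unfold Good
    exact Iff.rfl
  rw [h2]
  refine h1.inter (MeasurableSet.iInter fun x => MeasurableSet.iInter fun y =>
    MeasurableSet.iInter fun p => ?_)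
  by_cases hp : p.IsPath ∧ (∀ v ∈ p.support, v ∈ bx z N) ∧ C₁ * N ≤ p.length
  · have : {t : Env | p.IsPath → (∀ v ∈ p.support, v ∈ bx z N) →
        C₁ * N ≤ p.length → C' * N < ∑ e ∈ (pe p).filter (fun e => e ∉ tF 0 s), t e} =
        {t | C' * N < ∑ e ∈ (pe p).filter (fun e => e ∉ tF 0 s), t e} := by
      ext t
      simp only [Set.mem_ofPred_eq]
      exact ⟨fun h => h hp.1 hp.2.1 hp.2.2, fun h _ _ _ => h⟩
    rw [this]
    exact measurableSet_lt measurable_const
      (Finset.measurable_sum _ fun e _ => measurable_pi_apply e)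
  · have : {t : Env | p.IsPath → (∀ v ∈ p.support, v ∈ bx z N) →
        C₁ * N ≤ p.length → C' * N < ∑ e ∈ (pe p).filter (fun e => e ∉ tF 0 s), t e} =
        Set.univ := by
      ext t
      simp only [Set.mem_ofPred_eq, Set.mem_univ, iff_true]
      intro a b c
      exact absurd ⟨a, b, c⟩ hp
    rw [this]
    exact MeasurableSet.univ

theorem good_of [NullSingletonClass G] (h0 : G (Set.Iio 0) = 0)
    (hmean : ∫⁻ s, ENNReal.ofReal s ∂G ≠ ∞) : GoodStmt G := by
  classical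
  obtain ⟨β, hβ0, hβ⟩ := exists_level (G := G) h0 (η := 1 / 16) (by norm_num)
  obtain ⟨C₀, hC₀, hlln⟩ := lln hmean
  refine ⟨8 * C₀, max 1 (8 * (8 * C₀ + 1) / β), by positivity, lt_max_of_lt_left one_pos,
    fun s => ?_⟩
  set C₁ : ℝ := max 1 (8 * (8 * C₀ + 1) / β) with hC₁
  have hC1 : 1 ≤ C₁ := le_max_left _ _
  have hC2 : (8 * C₀ + 1) ≤ β * C₁ / 8 := by
    have : 8 * (8 * C₀ + 1) / β ≤ C₁ := le_max_right _ _
    rw [div_le_iff₀ hβ0] at this
    linarith
  obtain ⟨n₀, hn₀⟩ := hlln (1 / 16) (by norm_num)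
  obtain ⟨N₀, hN1, hN₀⟩ := poly_exp (δ := 1 / 16) (by norm_num)
  obtain ⟨N₂, hN₂⟩ := exists_nat_gt (β * (4 * (2 * (s : ℝ) + 1) ^ 2))
  refine ⟨max (max n₀ N₀) N₂, fun N hN z _ => ⟨measurableSet_good _ _ z N s, ?_⟩⟩
  have hr0 : n₀ ≤ N := ((le_max_left _ _).trans (le_max_left _ _)).trans hN
  have hr1 : N₀ ≤ N := ((le_max_right _ _).trans (le_max_left _ _)).trans hN
  have hr2 : N₂ ≤ N := (le_max_right _ _).trans hN
  have hN0 : 0 < N := lt_of_lt_of_le Nat.one_pos (hN1.trans hr1)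
  have hNpos : (1 : ℝ) ≤ N := by exact_mod_cast hN0
  have hN2' : β * (4 * (2 * (s : ℝ) + 1) ^ 2) < N := hN₂.trans_le (by exact_mod_cast hr2)
  have h1 := hn₀ (ringF z hN0) (by rw [card_ringF]; omega)
  have h2 : PG G {t | ∃ x ∈ Pe.bxF z N, ∃ (y : V) (p : latt.Walk x y), p.IsPath ∧
      N ≤ p.length ∧ 8 * nh β t (pe p) < p.length} ≤ ENNReal.ofReal (1 / 16) := by
    refine (peierls_box hβ z N N).trans (ENNReal.ofReal_le_ofReal ?_)
    refine le_trans ?_ (hN₀ N hr1)
    refine mul_le_mul_of_nonneg_right ?_ (by positivity)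
    exact pow_le_pow_left₀ (by positivity) (by linarith) 2
  have h3 : PG G {t | ¬ ∀ e, 0 < t e} = 0 := ae_iff.1 (ae_pos G h0)
  have hsub : {t : Env | ¬ Good (8 * C₀) C₁ z N s t} ⊆
      ({t | C₀ * (ringF z hN0).card < ∑ e ∈ ringF z hN0, t e} ∪
      {t | ∃ x ∈ Pe.bxF z N, ∃ (y : V) (p : latt.Walk x y), p.IsPath ∧
      N ≤ p.length ∧ 8 * nh β t (pe p) < p.length}) ∪ {t | ¬ ∀ e, 0 < t e} := by
    intro t ht
    by_contra hnot
    simp only [Set.mem_union, Set.mem_ofPred_eq, not_or, not_not, not_lt] at hnot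
    obtain ⟨⟨a1, a2⟩, a3⟩ := hnot
    refine ht ⟨?_, ?_⟩
    · rw [rs_eq t z hN0]
      rw [card_ringF] at a1
      push_cast at a1
      linarith
    · intro x y p hp hsup hlen
      have b0 : N ≤ p.length := by
        have : (N : ℝ) ≤ p.length := le_trans (by nlinarith) hlen
        exact_mod_cast this
      have b1 : p.length ≤ 8 * nh β t (pe p) := by
        by_contra hc
        push Not at hc
        exact a2 ⟨x, Pe.mem_bxF.2 (hsup x p.start_mem_support), y, p, hp, b0, hc⟩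
      have b3 : (p.length : ℝ) ≤ 8 * nh β t (pe p) := by exact_mod_cast b1
      -- heavy edges off the window
      set Hv : Finset latt.edgeSet := ((pe p).filter (fun e => β ≤ t e)) \ tF 0 s with hHv
      have c1 : ((nh β t (pe p) : ℕ) : ℝ) - (tF 0 s).card ≤ (Hv.card : ℝ) := by
        have : nh β t (pe p) ≤ Hv.card + (tF 0 s).card := by
          have : ((pe p).filter (fun e => β ≤ t e)).card - (tF 0 s).card ≤ Hv.card := by
            rw [hHv]; exact Finset.le_card_sdiff _ _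
          have h' : nh β t (pe p) = ((pe p).filter (fun e => β ≤ t e)).card := by
            unfold nh
            congr 1
          omega
        have h'' : ((nh β t (pe p) : ℕ) : ℝ) ≤ Hv.card + (tF 0 s).card := by exact_mod_cast this
        linarith
      have c2 : β * Hv.card ≤ ∑ e ∈ (pe p).filter (fun e => e ∉ tF 0 s), t e := by
        calc β * Hv.card = ∑ _e ∈ Hv, β := by rw [Finset.sum_const, nsmul_eq_mul, mul_comm]
          _ ≤ ∑ e ∈ Hv, t e := Finset.sum_le_sum fun e he => by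
              exact (Finset.mem_filter.1 (Finset.mem_sdiff.1 he).1).2
          _ ≤ _ := by
              refine Finset.sum_le_sum_of_subset_of_nonneg (fun e he => ?_)
                fun e _ _ => (a3 e).le
              rw [Finset.mem_filter]
              exact ⟨(Finset.mem_filter.1 (Finset.mem_sdiff.1 he).1).1,
                (Finset.mem_sdiff.1 he).2⟩
      have c3 : ((tF 0 s).card : ℝ) ≤ 4 * (2 * (s : ℝ) + 1) ^ 2 := by
        have := Pe.card_tF_le 0 s
        exact_mod_cast this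
      have c4 : β * ((tF 0 s).card : ℝ) ≤ β * (4 * (2 * (s : ℝ) + 1) ^ 2) :=
        mul_le_mul_of_nonneg_left c3 hβ0.le
      have c5 : (8 * C₀ + 1) * N ≤ β * C₁ / 8 * N := mul_le_mul_of_nonneg_right hC2 (by linarith)
      have c6 : β * (C₁ * N) ≤ β * (8 * nh β t (pe p)) :=
        mul_le_mul_of_nonneg_left (hlen.trans b3) hβ0.le
      have c7 : β * (((nh β t (pe p) : ℕ) : ℝ) - (tF 0 s).card) ≤ β * (Hv.card : ℝ) :=
        mul_le_mul_of_nonneg_left c1 hβ0.le
      refine lt_of_lt_of_le ?_ c2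
      nlinarith
  calc PG G {t : Env | ¬ Good (8 * C₀) C₁ z N s t} ≤ _ := measure_mono hsub
    _ ≤ (ENNReal.ofReal (1 / 16) + ENNReal.ofReal (1 / 16)) + 0 :=
        (measure_union_le _ _).trans (add_le_add
          ((measure_union_le _ _).trans (add_le_add h1 h2)) h3.le)
    _ = 1 / 8 := by
        rw [add_zero, ← ENNReal.ofReal_add (by positivity) (by positivity)]
        rw [show (1 / 16 + 1 / 16 : ℝ) = 1 / 8 by norm_num, ENNReal.ofReal_div_of_pos (by norm_num)]
        simp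

theorem len [NullSingletonClass G] (hG : Law G) : LenStmt G := len_of hG.nonneg hG.mean

theorem good [NullSingletonClass G] (hG : Law G) : GoodStmt G := good_of hG.nonneg hG.mean

end Vale.Agent.P158.C.GoodLen
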