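import Mathlib.Data.ZMod.Basic
import Mathlib.Data.Real.Basic
import Mathlib.Algebra.Order.BigOperators.Group.Finset
import Mathlib.Algebra.Order.BigOperators.Ring.Finset
import Mathlib.Tactic.Linarith
import Mathlib.Tactic.LinearCombination
import Mathlib.Tactic.Ring
import Mathlib.Tactic.Positivity
import Mathlib.Tactic.FieldSimp
import Mathlib.Logic.Relation

/-! Mixed differences of two functions with the four point inequality on a cycle:
every component of the set where they differ carries the mass of its maximal difference. -/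

namespace Vale.Agent.P158.C

open Finset

set_option linter.unusedSectionVars false

variable {m : ℕ} [NeZero m]

/-- Mixed difference of `F` at the cell with lower corner `(x,y)`. -/
def cell (F : ZMod m → ZMod m → ℝ) (x y : ZMod m) : ℝ :=
  F x y + F (x + 1) (y + 1) - F (x + 1) y - F x (y + 1)

/-- The four point inequality for neighbouring pairs. -/
structure Kal (F : ZMod m → ZMod m → ℝ) : Prop where
  diag : ∀ x, F x x = 0
  cell : ∀ x y, x ≠ y → 0 ≤ cell F x y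

/-- Row sums telescope. -/
theorem row_sum (F : ZMod m → ZMod m → ℝ) (x y : ZMod m) (r : ℕ) :
    ∑ i ∈ range r, cell F (x + i) y
      = (F x y - F x (y + 1)) - (F (x + r) y - F (x + r) (y + 1)) := by
  induction r with
  | zero => simp
  | succ r ih =>
    rw [sum_range_succ, ih]
    simp only [cell, Nat.cast_succ, ← add_assoc]
    ring

theorem zmod_cast_inj {i j : ℕ} (hi : i < m) (hj : j < m) (h : (i : ZMod m) = j) : i = j := by
  rw [ZMod.natCast_eq_natCast_iff'] at h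
  rwa [Nat.mod_eq_of_lt hi, Nat.mod_eq_of_lt hj] at h

/-- First exit along `+1` steps from `a` for a set that does not contain `b`. -/
theorem exists_exit (P : ZMod m → Prop) (a b : ZMod m) (hb : ¬ P b) :
    ∃ r : ℕ, r < m ∧ ¬ P (a + r) ∧ ∀ i < r, P (a + i) := by
  classical
  have h : ∃ r : ℕ, ¬ P (a + r) := ⟨(b - a).val, by
    rw [ZMod.natCast_val, ZMod.cast_id', id, add_sub_cancel]; exact hb⟩
  refine ⟨Nat.find h, ?_, Nat.find_spec h, fun i hi => not_not.1 (Nat.find_min h hi)⟩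
  refine lt_of_le_of_lt (Nat.find_min' h (m := (b - a).val) ?_) (ZMod.val_lt _)
  rw [ZMod.natCast_val, ZMod.cast_id', id, add_sub_cancel]; exact hb

/-- COMPONENT LEMMA. -/
theorem mass_ge {W T : ZMod m → ZMod m → ℝ} (hW : Kal W) (hT : Kal T)
    (hle : ∀ x y, T x y ≤ W x y) (K : Finset (ZMod m × ZMod m))
    (hK : ∀ x y, (x, y) ∈ K → T x y < W x y)
    (hx : ∀ x y, (x, y) ∈ K → T (x + 1) y < W (x + 1) y → (x + 1, y) ∈ K)
    (hy : ∀ x y, (x, y) ∈ K → T x (y + 1) < W x (y + 1) → (x, y + 1) ∈ K)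
    {x₀ y₀ : ZMod m} (h₀ : (x₀, y₀) ∈ K) :
    W x₀ y₀ - T x₀ y₀ ≤ ∑ p ∈ K, cell W p.1 p.2 := by
  classical
  have hne : ∀ x y, (x, y) ∈ K → x ≠ y := by
    rintro x y h rfl
    have := hK _ _ h
    rw [hW.diag, hT.diag] at this
    exact lt_irrefl _ this
  have hno : ∀ x, (x, x) ∉ K := fun x h => hne x x h rfl
  -- rows
  obtain ⟨s, hs, hsn, hsi⟩ := exists_exit (fun y => (x₀, y) ∈ K) y₀ x₀ (hno x₀)
  choose r hr hrn hri using fun j : ℕ =>
    exists_exit (fun x => (x, y₀ + j) ∈ K) x₀ (y₀ + j) (hno _)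
  have hspos : 0 < s := by
    rcases Nat.eq_zero_or_pos s with h | h
    · subst h
      exact absurd (by simpa using h₀) hsn
    · exact h
  have hrpos : ∀ j < s, 0 < r j := fun j hj => by
    rcases Nat.eq_zero_or_pos (r j) with h | h
    · have h1 := hrn j
      rw [h] at h1
      exact absurd (by simpa using hsi j hj) h1
    · exact h
  have hend : ∀ j < s, W (x₀ + r j) (y₀ + j) = T (x₀ + r j) (y₀ + j) := fun j hj => by
    by_contra hcon
    have hlt : T (x₀ + r j) (y₀ + j) < W (x₀ + r j) (y₀ + j) :=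
      lt_of_le_of_ne (hle _ _) (Ne.symm hcon)
    obtain ⟨i, hi⟩ : ∃ i, r j = i + 1 := ⟨r j - 1, (Nat.succ_pred_eq_of_pos (hrpos j hj)).symm⟩
    refine hrn j ?_
    rw [hi] at hlt ⊢
    rw [Nat.cast_succ, ← add_assoc] at hlt ⊢
    exact hx _ _ (hri j i (by omega)) hlt
  have hrow : ∀ j < s, (W x₀ (y₀ + j) - T x₀ (y₀ + j)) -
      (W x₀ (y₀ + (j + 1 : ℕ)) - T x₀ (y₀ + (j + 1 : ℕ)))
      ≤ ∑ i ∈ range (r j), cell W (x₀ + i) (y₀ + j) := fun j hj => by
    have h1 := row_sum W x₀ (y₀ + j) (r j)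
    have h2 := row_sum T x₀ (y₀ + j) (r j)
    have h3 : 0 ≤ ∑ i ∈ range (r j), cell T (x₀ + i) (y₀ + j) :=
      sum_nonneg fun i hi => hT.cell _ _ (hne _ _ (hri j i (mem_range.1 hi)))
    have h4 := hend j hj
    have h5 := hle (x₀ + r j) (y₀ + j + 1)
    rw [Nat.cast_succ, ← add_assoc]
    linarith
  have hcol : ∑ j ∈ range s, ((W x₀ (y₀ + j) - T x₀ (y₀ + j)) -
      (W x₀ (y₀ + (j + 1 : ℕ)) - T x₀ (y₀ + (j + 1 : ℕ)))) = W x₀ y₀ - T x₀ y₀ := by
    rw [sum_range_sub' (fun j : ℕ => W x₀ (y₀ + j) - T x₀ (y₀ + j))]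
    have : W x₀ (y₀ + s) = T x₀ (y₀ + s) := by
      by_contra hcon
      have hlt : T x₀ (y₀ + s) < W x₀ (y₀ + s) := lt_of_le_of_ne (hle _ _) (Ne.symm hcon)
      obtain ⟨i, hi⟩ : ∃ i, s = i + 1 := ⟨s - 1, (Nat.succ_pred_eq_of_pos hspos).symm⟩
      refine hsn ?_
      rw [hi] at hlt ⊢
      rw [Nat.cast_succ, ← add_assoc] at hlt ⊢
      exact hy _ _ (hsi i (by omega)) hlt
    simp [this]
  rw [← hcol]
  refine (sum_le_sum fun j hj => hrow j (mem_range.1 hj)).trans ?_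
  rw [sum_sigma']
  have hinj : ∀ a ∈ (range s).sigma (fun j => range (r j)),
      ∀ b ∈ (range s).sigma (fun j => range (r j)),
      ((x₀ + (a.2 : ZMod m), y₀ + (a.1 : ZMod m)) : ZMod m × ZMod m)
        = (x₀ + (b.2 : ZMod m), y₀ + (b.1 : ZMod m)) → a = b := by
    rintro ⟨a1, a2⟩ ha ⟨b1, b2⟩ hb hab
    simp only [mem_sigma, mem_range] at ha hb
    simp only [Prod.mk.injEq, add_right_inj] at hab
    have e1 := zmod_cast_inj (ha.1.trans hs) (hb.1.trans hs) hab.2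
    subst e1
    have e2 := zmod_cast_inj (ha.2.trans (hr _)) (hb.2.trans (hr _)) hab.1
    subst e2
    rfl
  have himg := sum_image (f := fun p : ZMod m × ZMod m => cell W p.1 p.2) hinj
  simp only at himg
  rw [← himg]
  refine sum_le_sum_of_subset_of_nonneg ?_ fun p hp _ => hW.cell _ _ (hne _ _ hp)
  intro p hp
  obtain ⟨a, ha, rfl⟩ := mem_image.1 hp
  simp only [mem_sigma, mem_range] at ha
  exact hri a.1 a.2 ha.2

/-- All cells together telescope to zero. -/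
theorem sum_cell (F : ZMod m → ZMod m → ℝ) : ∑ p : ZMod m × ZMod m, cell F p.1 p.2 = 0 := by
  have e1 : ∑ p : ZMod m × ZMod m, F (p.1 + 1) (p.2 + 1) = ∑ p : ZMod m × ZMod m, F p.1 p.2 :=
    Equiv.sum_comp (Equiv.addRight ((1, 1) : ZMod m × ZMod m)) (fun p => F p.1 p.2)
  have e2 : ∑ p : ZMod m × ZMod m, F (p.1 + 1) p.2 = ∑ p : ZMod m × ZMod m, F p.1 p.2 := by
    have := Equiv.sum_comp (Equiv.addRight ((1, 0) : ZMod m × ZMod m)) (fun p => F p.1 p.2)
    simpa using this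
  have e3 : ∑ p : ZMod m × ZMod m, F p.1 (p.2 + 1) = ∑ p : ZMod m × ZMod m, F p.1 p.2 := by
    have := Equiv.sum_comp (Equiv.addRight ((0, 1) : ZMod m × ZMod m)) (fun p => F p.1 p.2)
    simpa using this
  simp only [cell, sum_sub_distrib, sum_add_distrib, e1, e2, e3]
  ring

/-- A cell touches `E` if one of its corners is in `E`. -/
def Touch (E : ZMod m → ZMod m → Prop) (p : ZMod m × ZMod m) : Prop :=
  E p.1 p.2 ∨ E (p.1 + 1) p.2 ∨ E p.1 (p.2 + 1) ∨ E (p.1 + 1) (p.2 + 1)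

open Classical in
/-- TOTAL MASS. -/
theorem mass_le {W T : ZMod m → ZMod m → ℝ} (hW : Kal W) (hT : Kal T)
    (hle : ∀ x y, T x y ≤ W x y) :
    ∑ p ∈ univ.filter (fun p : ZMod m × ZMod m => T p.1 p.2 < W p.1 p.2), cell W p.1 p.2
      ≤ ∑ p ∈ univ.filter (fun p : ZMod m × ZMod m =>
          p.1 ≠ p.2 ∧ Touch (fun x y => T x y < W x y) p), cell T p.1 p.2
        + ∑ x : ZMod m, ((W x (x + 1) - T x (x + 1)) + (W (x + 1) x - T (x + 1) x)) := by
  set E : ZMod m → ZMod m → Prop := fun x y => T x y < W x y with hE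
  set f : ZMod m → ZMod m → ℝ := fun x y => W x y - T x y with hf
  have hcell : ∀ x y, cell W x y = cell T x y + cell f x y := fun x y => by
    simp only [cell, hf]; ring
  have hf0 : ∀ x y, ¬ E x y → f x y = 0 := fun x y h => by
    have h1 := hle x y
    have h2 : W x y ≤ T x y := not_lt.1 h
    simp only [hf]; linarith
  have hfn : ∀ x y, 0 ≤ f x y := fun x y => sub_nonneg.2 (hle x y)
  have hnt : ∀ p : ZMod m × ZMod m, ¬ Touch E p → cell f p.1 p.2 = 0 := fun p hp => by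
    simp only [Touch, not_or] at hp
    simp only [cell, hf0 _ _ hp.1, hf0 _ _ hp.2.1, hf0 _ _ hp.2.2.1, hf0 _ _ hp.2.2.2]
    ring
  have hsub : univ.filter (fun p : ZMod m × ZMod m => T p.1 p.2 < W p.1 p.2)
      ⊆ univ.filter (fun p : ZMod m × ZMod m => p.1 ≠ p.2 ∧ Touch E p) := by
    intro p hp
    have hp' := (mem_filter.1 hp).2
    refine mem_filter.2 ⟨mem_univ _, ?_, Or.inl hp'⟩
    intro h
    rw [h, hW.diag, hT.diag] at hp'
    exact lt_irrefl _ hp'
  refine (sum_le_sum_of_subset_of_nonneg hsub fun p hp _ =>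
    hW.cell _ _ (mem_filter.1 hp).2.1).trans ?_
  simp_rw [hcell]
  rw [sum_add_distrib]
  refine add_le_add le_rfl ?_
  -- sum of cell f over off-diagonal touched cells
  have h1 : ∑ p ∈ univ.filter (fun p : ZMod m × ZMod m => p.1 ≠ p.2 ∧ Touch E p), cell f p.1 p.2
      = ∑ p ∈ univ.filter (fun p : ZMod m × ZMod m => p.1 ≠ p.2), cell f p.1 p.2 := by
    symm
    rw [← filter_filter]
    refine (sum_filter_of_ne (s := univ.filter (fun p : ZMod m × ZMod m => p.1 ≠ p.2)) ?_).symm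
    intro p _ hp
    by_contra hcon
    exact hp (hnt p hcon)
  have h2 := sum_cell f
  rw [← sum_filter_add_sum_filter_not univ (fun p : ZMod m × ZMod m => p.1 ≠ p.2)] at h2
  have h3 : ∑ p ∈ univ.filter (fun p : ZMod m × ZMod m => ¬ p.1 ≠ p.2), cell f p.1 p.2
      = ∑ x : ZMod m, cell f x x := by
    symm
    refine sum_bij (fun x _ => (x, x)) ?_ ?_ ?_ ?_
    · intro x _; simp
    · intro a _ b _ h; exact (Prod.mk.injEq _ _ _ _ ▸ h).1
    · rintro ⟨a, b⟩ h
      simp only [not_not, mem_filter, mem_univ, true_and] at h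
      subst h
      exact ⟨a, mem_univ _, rfl⟩
    · intro x _; rfl
  have h4 : ∑ x : ZMod m, cell f x x
      = - ∑ x : ZMod m, ((W x (x + 1) - T x (x + 1)) + (W (x + 1) x - T (x + 1) x)) := by
    rw [← sum_neg_distrib]
    refine sum_congr rfl fun x _ => ?_
    simp only [cell, hf, hW.diag, hT.diag]
    ring
  rw [h1]
  linarith

/-- One step inside `E`. -/
def St (E : Set (ZMod m × ZMod m)) (a b : ZMod m × ZMod m) : Prop :=
  a ∈ E ∧ b ∈ E ∧ (b = (a.1 + 1, a.2) ∨ a = (b.1 + 1, b.2) ∨ b = (a.1, a.2 + 1) ∨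
    a = (b.1, b.2 + 1))

theorem St.symm {E : Set (ZMod m × ZMod m)} {a b : ZMod m × ZMod m} (h : St E a b) :
    St E b a := by
  obtain ⟨h1, h2, h3⟩ := h
  exact ⟨h2, h1, by tauto⟩

theorem St.mono {E E' : Set (ZMod m × ZMod m)} (h : E ⊆ E') {a b : ZMod m × ZMod m}
    (hs : St E a b) : St E' a b := ⟨h hs.1, h hs.2.1, hs.2.2⟩

/-- Connected inside `E`. -/
def Cn (E : Set (ZMod m × ZMod m)) (a b : ZMod m × ZMod m) : Prop :=
  a ∈ E ∧ Relation.ReflTransGen (St E) a b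

theorem Cn.mem_right {E : Set (ZMod m × ZMod m)} {a b : ZMod m × ZMod m} (h : Cn E a b) :
    b ∈ E := by
  obtain ⟨ha, h⟩ := h
  induction h with
  | refl => exact ha
  | tail _ h2 _ => exact h2.2.1

theorem Cn.refl {E : Set (ZMod m × ZMod m)} {a : ZMod m × ZMod m} (h : a ∈ E) : Cn E a a :=
  ⟨h, Relation.ReflTransGen.refl⟩

theorem Cn.symm {E : Set (ZMod m × ZMod m)} {a b : ZMod m × ZMod m} (h : Cn E a b) :
    Cn E b a := by
  refine ⟨h.mem_right, ?_⟩
  have : Std.Symm (St E) := ⟨fun _ _ => St.symm⟩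
  exact (Relation.ReflTransGen.stdSymm (r := St E)).symm _ _ h.2

theorem Cn.trans {E : Set (ZMod m × ZMod m)} {a b c : ZMod m × ZMod m} (h : Cn E a b)
    (h' : Cn E b c) : Cn E a c := ⟨h.1, h.2.trans h'.2⟩

theorem Cn.mono {E E' : Set (ZMod m × ZMod m)} (hE : E ⊆ E') {a b : ZMod m × ZMod m}
    (h : Cn E a b) : Cn E' a b := by
  refine ⟨hE h.1, ?_⟩
  exact Relation.ReflTransGen.mono (r := St E) (p := St E') (fun _ _ => St.mono hE) _ _ h.2

open Classical in
/-- The component of `a` in `E`. -/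
noncomputable def comp (E : Set (ZMod m × ZMod m)) (a : ZMod m × ZMod m) :
    Finset (ZMod m × ZMod m) := univ.filter fun b => Cn E a b

theorem mem_comp {E : Set (ZMod m × ZMod m)} {a b : ZMod m × ZMod m} :
    b ∈ comp E a ↔ Cn E a b := by
  classical
  simp [comp]

/-- The set where `T < W`. -/
def Ex (T W : ZMod m → ZMod m → ℝ) : Set (ZMod m × ZMod m) := {p | T p.1 p.2 < W p.1 p.2}

open Classical in
/-- Union of the components of `{T < W}` on which `W - T` reaches `g`. -/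
noncomputable def heavy (T W : ZMod m → ZMod m → ℝ) (g : ℝ) : Finset (ZMod m × ZMod m) :=
  univ.filter fun a => ∃ b, Cn (Ex T W) a b ∧ g ≤ W b.1 b.2 - T b.1 b.2

theorem mem_heavy {T W : ZMod m → ZMod m → ℝ} {g : ℝ} {a : ZMod m × ZMod m} :
    a ∈ heavy T W g ↔ ∃ b, Cn (Ex T W) a b ∧ g ≤ W b.1 b.2 - T b.1 b.2 := by
  classical
  simp [heavy]

/-- Mass of a set of cells. -/
noncomputable def mu (W : ZMod m → ZMod m → ℝ) (S : Finset (ZMod m × ZMod m)) : ℝ :=
  ∑ p ∈ S, cell W p.1 p.2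

theorem mass_comp {W T : ZMod m → ZMod m → ℝ} (hW : Kal W) (hT : Kal T)
    (hle : ∀ x y, T x y ≤ W x y) {a b : ZMod m × ZMod m} (h : Cn (Ex T W) a b) :
    W b.1 b.2 - T b.1 b.2 ≤ mu W (comp (Ex T W) a) := by
  refine mass_ge hW hT hle _ ?_ ?_ ?_ (x₀ := b.1) (y₀ := b.2) (mem_comp.2 h)
  · intro x y hxy
    exact (mem_comp.1 hxy).mem_right
  · intro x y hxy hlt
    have h1 := mem_comp.1 hxy
    refine mem_comp.2 ⟨h1.1, h1.2.tail ⟨h1.mem_right, hlt, Or.inl rfl⟩⟩
  · intro x y hxy hlt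
    have h1 := mem_comp.1 hxy
    refine mem_comp.2 ⟨h1.1, h1.2.tail ⟨h1.mem_right, hlt, Or.inr (Or.inr (Or.inl rfl))⟩⟩

theorem Ex_ne {W T : ZMod m → ZMod m → ℝ} (hW : Kal W) (hT : Kal T) {p : ZMod m × ZMod m}
    (hp : p ∈ Ex T W) : p.1 ≠ p.2 := by
  intro h
  have hp' : T p.1 p.2 < W p.1 p.2 := hp
  rw [h, hW.diag, hT.diag] at hp'
  exact lt_irrefl _ hp'

theorem cell_nonneg_Ex {W T : ZMod m → ZMod m → ℝ} (hW : Kal W) (hT : Kal T)
    {p : ZMod m × ZMod m} (hp : p ∈ Ex T W) : 0 ≤ cell W p.1 p.2 :=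
  hW.cell _ _ (Ex_ne hW hT hp)

theorem mu_nonneg {W T : ZMod m → ZMod m → ℝ} (hW : Kal W) (hT : Kal T)
    {S : Finset (ZMod m × ZMod m)} (hS : ∀ p ∈ S, p ∈ Ex T W) : 0 ≤ mu W S :=
  sum_nonneg fun p hp => cell_nonneg_Ex hW hT (hS p hp)

theorem heavy_sub {T W : ZMod m → ZMod m → ℝ} {g : ℝ} {p : ZMod m × ZMod m}
    (hp : p ∈ heavy T W g) : p ∈ Ex T W := by
  obtain ⟨b, hb, _⟩ := mem_heavy.1 hp
  exact hb.1

open Classical in
/-- HEAVY POTENTIAL: one step. -/
theorem heavy_step {W T T' : ZMod m → ZMod m → ℝ} (hW : Kal W) (hT : Kal T) (hT' : Kal T')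
    (hTW : ∀ x y, T x y ≤ W x y) (hTT : ∀ x y, T' x y ≤ T x y) {g h : ℝ} (hg : 0 < g)
    (hh : 0 ≤ h) (I : Finset (ZMod m × ZMod m))
    (hI : ∀ p ∈ I, h ≤ W p.1 p.2 - T p.1 p.2 ∧ p ∈ Ex T W)
    (hd : ∀ p ∈ I, ∀ q ∈ I, Cn (Ex T W) p q → p = q) :
    mu W (heavy T W g) + h * (((I.filter fun p => g ≤ W p.1 p.2 - T' p.1 p.2).card : ℝ)
      - mu W (heavy T W g) / g) ≤ mu W (heavy T' W g) := by
  have hT'W : ∀ x y, T' x y ≤ W x y := fun x y => (hTT x y).trans (hTW x y)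
  have hEE : Ex T W ⊆ Ex T' W := fun p hp => lt_of_le_of_lt (hTT _ _) hp
  set Ig := I.filter fun p => g ≤ W p.1 p.2 - T' p.1 p.2 with hIg
  set Il := Ig.filter fun p => p ∉ heavy T W g with hIl
  set Ih := Ig.filter fun p => p ∈ heavy T W g with hIh
  have hcard : (Ig.card : ℝ) = Ih.card + Il.card := by
    rw [← Nat.cast_add, hIh, hIl]
    congr 1
    exact (card_filter_add_card_filter_not (s := Ig) (fun p => p ∈ heavy T W g)).symm
  have hIgI : ∀ p ∈ Ig, p ∈ I := fun p hp => (mem_filter.1 hp).1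
  have hdis : ∀ p ∈ Ig, ∀ q ∈ Ig, p ≠ q →
      Disjoint (comp (Ex T W) p) (comp (Ex T W) q) := by
    intro p hp q hq hpq
    rw [disjoint_left]
    intro a ha hb
    exact hpq (hd p (hIgI p hp) q (hIgI q hq) ((mem_comp.1 ha).trans (mem_comp.1 hb).symm))
  -- heavy ones
  have hheavy : (Ih.card : ℝ) * g ≤ mu W (heavy T W g) := by
    have h1 : ∑ p ∈ Ih, mu W (comp (Ex T W) p) ≤ mu W (heavy T W g) := by
      unfold mu
      rw [← sum_biUnion]
      · refine sum_le_sum_of_subset_of_nonneg ?_ fun p hp _ =>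
          cell_nonneg_Ex hW hT (heavy_sub hp)
        intro a ha
        obtain ⟨p, hp, hap⟩ := mem_biUnion.1 ha
        obtain ⟨b, hb, hgb⟩ := mem_heavy.1 (mem_filter.1 hp).2
        exact mem_heavy.2 ⟨b, (mem_comp.1 hap).symm.trans hb, hgb⟩
      · intro p hp q hq hpq
        exact hdis p (mem_filter.1 hp).1 q (mem_filter.1 hq).1 hpq
    refine le_trans ?_ h1
    rw [← nsmul_eq_mul]
    refine card_nsmul_le_sum _ _ _ fun p hp => ?_
    obtain ⟨b, hb, hgb⟩ := mem_heavy.1 (mem_filter.1 hp).2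
    exact hgb.trans (mass_comp hW hT hTW hb)
  -- light ones
  have hlight : mu W (heavy T W g) + (Il.card : ℝ) * h ≤ mu W (heavy T' W g) := by
    have h1 : mu W (heavy T W g) + ∑ p ∈ Il, mu W (comp (Ex T W) p)
        ≤ mu W (heavy T' W g) := by
      unfold mu
      rw [← sum_biUnion, ← sum_union]
      · refine sum_le_sum_of_subset_of_nonneg ?_ fun p hp _ =>
          cell_nonneg_Ex hW hT' (heavy_sub hp)
        intro a ha
        rcases mem_union.1 ha with ha | ha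
        · obtain ⟨b, hb, hgb⟩ := mem_heavy.1 ha
          exact mem_heavy.2 ⟨b, hb.mono hEE, hgb.trans (by linarith [hTT b.1 b.2])⟩
        · obtain ⟨p, hp, hap⟩ := mem_biUnion.1 ha
          exact mem_heavy.2 ⟨p, (mem_comp.1 hap).symm.mono hEE,
            (mem_filter.1 (mem_filter.1 hp).1).2⟩
      · rw [disjoint_left]
        intro a ha hb
        obtain ⟨p, hp, hap⟩ := mem_biUnion.1 hb
        obtain ⟨b, hab, hgb⟩ := mem_heavy.1 ha
        exact (mem_filter.1 hp).2 (mem_heavy.2 ⟨b, (mem_comp.1 hap).trans hab, hgb⟩)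
      · intro p hp q hq hpq
        exact hdis p (mem_filter.1 hp).1 q (mem_filter.1 hq).1 hpq
    refine le_trans (add_le_add le_rfl ?_) h1
    rw [← nsmul_eq_mul]
    refine card_nsmul_le_sum _ _ _ fun p hp => ?_
    have hpI := hI p (hIgI p (mem_filter.1 hp).1)
    exact hpI.1.trans (mass_comp hW hT hTW (Cn.refl hpI.2))
  have h3 : (Ih.card : ℝ) ≤ mu W (heavy T W g) / g := by
    rwa [le_div_iff₀ hg]
  have h4 : h * ((Ig.card : ℝ) - mu W (heavy T W g) / g) ≤ (Il.card : ℝ) * h := by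
    rw [mul_comm h]
    refine mul_le_mul_of_nonneg_right ?_ hh
    rw [hcard]; linarith
  linarith

end Vale.Agent.P158.C
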