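import Vale.Agent.P158.T1.PlanB
import Vale.Agent.P158.C.Br

/-! No branching: from merge counts in boxes to the absence of branch points. -/

namespace Vale.Agent.P158.C

open SimpleGraph MeasureTheory Filter Vale.Agent.P158.T1
open scoped ENNReal

variable {G : Measure ℝ} [IsProbabilityMeasure G] {w : V → V → ℝ}

/-- Boundary of the box. -/
def bdy (N : ℕ) : Set V := {x | x ∈ bx 0 N ∧ (|x.1| = N ∨ |x.2| = N)}

/-- `p` is entered through two different edges by geodesics of the box with target `y`. -/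
def MrgB (w : V → V → ℝ) (N : ℕ) (y p : V) : Prop :=
  ∃ x x' q q' : V, x ∈ bdy N ∧ x' ∈ bdy N ∧ latt.Adj q p ∧ latt.Adj q' p ∧ q ≠ q' ∧
    q ∈ bx 0 N ∧ q' ∈ bx 0 N ∧ p ∈ bx 0 N ∧
    PT w (bx 0 N) x q + w q p + PT w (bx 0 N) p y = PT w (bx 0 N) x y ∧
    PT w (bx 0 N) x' q' + w q' p + PT w (bx 0 N) p y = PT w (bx 0 N) x' y

theorem br_sh (hw : Adm w) (u p : V) : Br (sh u w) p ↔ Br w (p + u) := by
  constructor
  · rintro ⟨q, q', h1, h2, h3, h4⟩
    refine ⟨q + u, q' + u, adj_add h1 u, adj_add h2 u, fun h => h3 (add_right_cancel h),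
      fun F hF => ?_⟩
    obtain ⟨x, x', y, hx, hx', hy, e1, e2⟩ := h4 ((fun z => z + u) ⁻¹' F)
      (hF.preimage (add_left_injective u).injOn)
    rw [T_sh hw, T_sh hw, T_sh hw] at e1 e2
    exact ⟨x + u, x' + u, y + u, hx, hx', hy, e1, e2⟩
  · rintro ⟨q, q', h1, h2, h3, h4⟩
    refine ⟨q - u, q' - u, ?_, ?_, fun h => h3 (sub_left_injective h), fun F hF => ?_⟩
    · rw [← adj_add_iff u]; simpa using h1
    · rw [← adj_add_iff u]; simpa using h2
    · obtain ⟨x, x', y, hx, hx', hy, e1, e2⟩ := h4 ((fun z => z - u) ⁻¹' F)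
        (hF.preimage (sub_left_injective).injOn)
      refine ⟨x - u, x' - u, y - u, hx, hx', hy, ?_, ?_⟩
      · rw [T_sh hw, T_sh hw, T_sh hw]
        simpa [sh] using e1
      · rw [T_sh hw, T_sh hw, T_sh hw]
        simpa [sh] using e2

theorem mem_bx_zero {x : V} {N : ℕ} : x ∈ bx 0 N ↔ |x.1| ≤ N ∧ |x.2| ≤ N := by
  rw [mem_bx]; simp

theorem mem_bdy_of_adj {u v : V} {N : ℕ} (h : latt.Adj u v) (hu : u ∈ bx 0 N)
    (hv : v ∉ bx 0 N) : u ∈ bdy N := by
  refine ⟨hu, ?_⟩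
  have h3 : |u.1 - v.1| + |u.2 - v.2| = 1 := h
  by_contra hcon
  apply hv
  rw [mem_bx_zero] at hu ⊢
  push Not at hcon
  have a1 := lt_of_le_of_ne hu.1 hcon.1
  have a2 := lt_of_le_of_ne hu.2 hcon.2
  have b1 := abs_nonneg (u.1 - v.1)
  have b2 := abs_nonneg (u.2 - v.2)
  rw [abs_lt] at a1 a2
  have c1 := abs_le.1 (by omega : |u.1 - v.1| ≤ 1)
  have c2 := abs_le.1 (by omega : |u.2 - v.2| ≤ 1)
  constructor <;> rw [abs_le] <;> constructor <;> omega

/-- First exit of a walk from the box, through the inner boundary. -/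
theorem exit_inner {N : ℕ} {x y : V} (p : latt.Walk x y) (hx : x ∈ bx 0 N) (hy : y ∉ bx 0 N) :
    ∃ (z : V) (p₁ : latt.Walk x z) (p₂ : latt.Walk z y), p = p₁.append p₂ ∧ z ∈ bdy N ∧
      ∀ u ∈ p₁.support, u ∈ bx 0 N := by
  induction p with
  | nil => exact absurd hx hy
  | cons h p ih =>
    rename_i u v w
    by_cases hv : v ∈ bx 0 N
    · obtain ⟨z, p₁, p₂, hp, hz, hs⟩ := ih hv hy
      refine ⟨z, Walk.cons h p₁, p₂, by rw [hp]; rfl, hz, fun a ha => ?_⟩
      rw [Walk.support_cons, List.mem_cons] at ha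
      rcases ha with rfl | ha
      · exact hx
      · exact hs a ha
    · refine ⟨u, Walk.nil, Walk.cons h p, rfl, mem_bdy_of_adj h hx hv, fun a ha => ?_⟩
      rw [Walk.support_nil, List.mem_singleton] at ha
      rw [ha]; exact hx

/-- The first part of a geodesic from inside the box to the outside. -/
theorem geo_exit (hw : Adm w) (hA : Att w Set.univ) {N : ℕ} {p y : V} (hp : p ∈ bx 0 N)
    (hy : y ∉ bx 0 N) : ∃ z ∈ bdy N, Conn (bx 0 N) p z ∧ PT w (bx 0 N) p z = T w p z ∧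
      T w p y = T w p z + T w z y := by
  obtain ⟨π, -, hπ⟩ := hA p (Set.mem_univ _) y (Set.mem_univ _)
  obtain ⟨z, p₁, p₂, e, hz, hs⟩ := exit_inner π hp hy
  have hc : Conn (bx 0 N) p z := ⟨p₁, hs⟩
  have a1 := T_le hw p₁
  have a2 := T_le hw p₂
  have a3 := T_triangle hw p z y
  have a4 := T_le_PT hw hc
  have a5 := PT_le hw p₁ hs
  have a6 : ww w p₁ + ww w p₂ = T w p y := by
    rw [← ww_append, ← e]; exact hπ
  exact ⟨z, hz, hc, by linarith, by linarith⟩

/-- A branch vertex in the middle of the box is a merge vertex of the box. -/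
theorem mrg_of_br (hw : Adm w) (hA : Att w Set.univ) {p : V} (h : Br w p) {N : ℕ}
    (hp : p ∈ bx 0 N) (hp' : p ∉ bdy N) : ∃ y ∈ bdy N, MrgB w N y p := by
  obtain ⟨q, q', hq, hq', hne, hF⟩ := h
  obtain ⟨x, x', y, hx, hx', hy, e1, e2⟩ := hF (bx 0 N) (bx_finite 0 N)
  have hin : ∀ r : V, latt.Adj r p → r ∈ bx 0 N := by
    intro r hr
    by_contra hcon
    exact hp' (mem_bdy_of_adj hr.symm hp hcon)
  obtain ⟨z, hz, hc, g1, g2⟩ := geo_exit hw hA hp hy
  have side : ∀ r s : V, latt.Adj r p → s ∉ bx 0 N →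
      T w s y = T w s r + w r p + T w p y → ∃ s' ∈ bdy N,
        PT w (bx 0 N) s' r + w r p + PT w (bx 0 N) p z = PT w (bx 0 N) s' z := by
    intro r s hr hs e
    have hrN := hin r hr
    obtain ⟨s', hs', c', k1, k2⟩ := geo_exit hw hA hrN hs
    refine ⟨s', hs', ?_⟩
    have cc : Conn (bx 0 N) s' r := c'.symm'
    have cp : Conn (bx 0 N) r p := Conn.of_adj hr hrN hp
    have t1 := PT_triangle hw cc (cp.trans' hc)
    have t2 := PT_triangle hw cp hc
    have t3 := PT_adj_le hw hr hrN hp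
    have t4 := T_le_PT hw (cc.trans' (cp.trans' hc))
    have t5 := T_triangle hw s s' y
    have t6 := T_triangle hw s' z y
    rw [PT_comm hw, T_comm hw] at k1
    rw [T_comm hw r s, T_comm hw r s', T_comm hw s' s] at k2
    linarith
  obtain ⟨s, hs, f1⟩ := side q x hq hx e1
  obtain ⟨s', hs', f2⟩ := side q' x' hq' hx' e2
  exact ⟨z, hz, s, s', q, q', hs, hs', hq, hq', hne, hin q hq, hin q' hq', hp, f1, f2⟩

theorem fb_sh (hw : Adm w) (hf : FB w) (u : V) : FB (sh u w) := by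
  intro s
  refine ((hf (T w 0 u + s)).preimage (f := fun z => z + u) (add_left_injective u).injOn).subset ?_
  intro z hz
  have hz' : T (sh u w) 0 z ≤ s := hz
  rw [T_sh hw, zero_add] at hz'
  have := T_triangle hw 0 u (z + u)
  show T w 0 (z + u) ≤ _
  linarith

theorem measurableSet_mrg (N : ℕ) (y p : V) : MeasurableSet {t : Env | MrgB (wt t) N y p} := by
  have : {t : Env | MrgB (wt t) N y p} = ⋃ x : V, ⋃ x' : V, ⋃ q : V, ⋃ q' : V,
      {t : Env | (x ∈ bdy N ∧ x' ∈ bdy N ∧ latt.Adj q p ∧ latt.Adj q' p ∧ q ≠ q' ∧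
    q ∈ bx 0 N ∧ q' ∈ bx 0 N ∧ p ∈ bx 0 N) ∧
    (PT (wt t) (bx 0 N) x q + wt t q p + PT (wt t) (bx 0 N) p y = PT (wt t) (bx 0 N) x y ∧
    PT (wt t) (bx 0 N) x' q' + wt t q' p + PT (wt t) (bx 0 N) p y =
      PT (wt t) (bx 0 N) x' y)} := by
    ext t
    simp only [Set.mem_iUnion, Set.mem_ofPred_eq, MrgB]
    constructor
    · rintro ⟨x, x', q, q', h1, h2, h3, h4, h5, h6, h7, h8, h9, h10⟩
      exact ⟨x, x', q, q', ⟨h1, h2, h3, h4, h5, h6, h7, h8⟩, h9, h10⟩
    · rintro ⟨x, x', q, q', ⟨h1, h2, h3, h4, h5, h6, h7, h8⟩, h9, h10⟩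
      exact ⟨x, x', q, q', h1, h2, h3, h4, h5, h6, h7, h8, h9, h10⟩
  rw [this]
  refine MeasurableSet.iUnion fun x => MeasurableSet.iUnion fun x' => MeasurableSet.iUnion
    fun q => MeasurableSet.iUnion fun q' => ?_
  refine (MeasurableSet.const _).inter ((measurableSet_eq_fun ?_ ?_).inter
    (measurableSet_eq_fun ?_ ?_))
  · exact ((measurable_PT _ _ _).add (measurable_wt _ _)).add (measurable_PT _ _ _)
  · exact measurable_PT _ _ _
  · exact ((measurable_PT _ _ _).add (measurable_wt _ _)).add (measurable_PT _ _ _)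
  · exact measurable_PT _ _ _

/-- The box as a finset. -/
noncomputable def bxF (z : V) (r : ℕ) : Finset V := (bx_finite z r).toFinset

theorem mem_bxF {z x : V} {r : ℕ} : x ∈ bxF z r ↔ x ∈ bx z r := (bx_finite z r).mem_toFinset

theorem bdy_finite (N : ℕ) : (bdy N).Finite := (bx_finite 0 N).subset fun _ h => h.1

theorem card_bxF_ge (m : ℕ) : (2 * m + 1) ^ 2 ≤ (bxF 0 m).card := by
  have h : (Finset.Icc (-(m : ℤ)) m) ×ˢ (Finset.Icc (-(m : ℤ)) m) ⊆ bxF 0 m := by
    rintro ⟨a, b⟩ h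
    rw [Finset.mem_product, Finset.mem_Icc, Finset.mem_Icc] at h
    rw [mem_bxF, mem_bx_zero]
    exact ⟨abs_le.2 h.1, abs_le.2 h.2⟩
  have h2 := Finset.card_le_card h
  rw [Finset.card_product, Int.card_Icc] at h2
  have e : ((m : ℤ) + 1 - -(m : ℤ)).toNat = 2 * m + 1 := by omega
  rw [e] at h2
  rw [sq]
  exact h2

theorem card_bdy_le (N : ℕ) : (bdy_finite N).toFinset.card ≤ 4 * (2 * N + 1) := by
  classical
  have h : (bdy_finite N).toFinset ⊆
      ((Finset.Icc (-(N : ℤ)) N).image fun b => ((N : ℤ), b)) ∪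
      ((Finset.Icc (-(N : ℤ)) N).image fun b => (-(N : ℤ), b)) ∪
      (((Finset.Icc (-(N : ℤ)) N).image fun b => (b, (N : ℤ))) ∪
      ((Finset.Icc (-(N : ℤ)) N).image fun b => (b, -(N : ℤ)))) := by
    rintro ⟨a, b⟩ h
    rw [Set.Finite.mem_toFinset] at h
    obtain ⟨h1, h2⟩ := h
    rw [mem_bx_zero] at h1
    simp only at h1 h2
    have ha := abs_le.1 h1.1
    have hb := abs_le.1 h1.2
    simp only [Finset.mem_union, Finset.mem_image, Finset.mem_Icc, Prod.mk.injEq]
    rcases h2 with h2 | h2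
    · rcases abs_choice a with h3 | h3
      · left; left; exact ⟨b, hb, by omega, rfl⟩
      · left; right; exact ⟨b, hb, by omega, rfl⟩
    · rcases abs_choice b with h3 | h3
      · right; left; exact ⟨a, ha, rfl, by omega⟩
      · right; right; exact ⟨a, ha, rfl, by omega⟩
  refine (Finset.card_le_card h).trans ?_
  have hc : (Finset.Icc (-(N : ℤ)) N).card = 2 * N + 1 := by
    rw [Int.card_Icc]; omega
  refine (Finset.card_union_le _ _).trans ?_
  have u1 := (Finset.card_union_le ((Finset.Icc (-(N : ℤ)) N).image fun b => ((N : ℤ), b))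
    ((Finset.Icc (-(N : ℤ)) N).image fun b => (-(N : ℤ), b)))
  have u2 := (Finset.card_union_le ((Finset.Icc (-(N : ℤ)) N).image fun b => (b, (N : ℤ)))
    ((Finset.Icc (-(N : ℤ)) N).image fun b => (b, -(N : ℤ))))
  have v1 := Finset.card_image_le (s := Finset.Icc (-(N : ℤ)) N) (f := fun b => ((N : ℤ), b))
  have v2 := Finset.card_image_le (s := Finset.Icc (-(N : ℤ)) N) (f := fun b => (-(N : ℤ), b))
  have v3 := Finset.card_image_le (s := Finset.Icc (-(N : ℤ)) N) (f := fun b => (b, (N : ℤ)))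
  have v4 := Finset.card_image_le (s := Finset.Icc (-(N : ℤ)) N) (f := fun b => (b, -(N : ℤ)))
  omega

/-- Merge counts `o(N)` per target imply that there are no branch vertices. -/
theorem nb_of_merge [NullSingletonClass G] (hG : G (Set.Iio 0) = 0)
    (hFB : ∀ᵐ t ∂PG G, FB (wt t))
    (hM : ∀ ε : ℝ, 0 < ε → ∃ N₀ : ℕ, ∀ N ≥ N₀, ∀ y ∈ bdy N,
      ∑ p ∈ bxF 0 (N / 2), PG G {t | MrgB (wt t) N y p} ≤ ENNReal.ofReal (ε * N)) :
    ∀ᵐ t ∂PG G, ∀ p, ¬ Br (wt t) p := by
  classical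
  have hzero : PG G {t | (Adm (wt t) ∧ FB (wt t)) ∧ Br (wt t) 0} = 0 := by
    refine le_antisymm (ENNReal.le_of_forall_pos_le_add fun ε hε _ => ?_) (zero_le)
    rw [zero_add]
    obtain ⟨N₀, hN₀⟩ := hM (ε / 12) (by positivity)
    set N := max N₀ 2 with hN
    have hN2 : 2 ≤ N := le_max_right _ _
    have hN1 := hN₀ N (le_max_left _ _)
    have step1 : ∀ p ∈ bxF 0 (N / 2), PG G {t | (Adm (wt t) ∧ FB (wt t)) ∧ Br (wt t) 0} ≤
        ∑ y ∈ (bdy_finite N).toFinset, PG G {t | MrgB (wt t) N y p} := by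
      intro p hp
      rw [mem_bxF] at hp
      have hp1 : p ∈ bx 0 N := bx_mono (Nat.div_le_self _ _) hp
      have hp2 : p ∉ bdy N := by
        rintro ⟨-, h⟩
        rw [mem_bx_zero] at hp
        have : (N / 2 : ℕ) < N := by omega
        rcases h with h | h
        · have := hp.1; omega
        · have := hp.2; omega
      have hmeas : MeasurableSet (⋃ y ∈ (bdy_finite N).toFinset, {t : Env | MrgB (wt t) N y p}) :=
        Finset.measurableSet_biUnion _ fun y _ => measurableSet_mrg N y p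
      calc PG G {t | (Adm (wt t) ∧ FB (wt t)) ∧ Br (wt t) 0}
          ≤ PG G (shE (-p) ⁻¹' (⋃ y ∈ (bdy_finite N).toFinset,
              {t : Env | MrgB (wt t) N y p})) := by
            refine measure_mono ?_
            rintro t ⟨⟨hadm, hfb⟩, hbr⟩
            have hadm' : Adm (wt (shE (-p) t)) := by rw [wt_shE]; exact hadm.sh _
            have hatt : Att (wt (shE (-p) t)) Set.univ := by
              rw [wt_shE]
              exact att_of_fb (hadm.sh _) (fb_sh hadm hfb _) fun _ _ _ _ => conn_univ _ _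
            have hbr' : Br (wt (shE (-p) t)) p := by
              rw [wt_shE, br_sh hadm]
              simpa using hbr
            obtain ⟨y, hy, hmy⟩ := mrg_of_br hadm' hatt hbr' hp1 hp2
            simp only [Set.mem_preimage, Set.mem_iUnion]
            exact ⟨y, (Set.Finite.mem_toFinset _).2 hy, hmy⟩
        _ = PG G (⋃ y ∈ (bdy_finite N).toFinset, {t : Env | MrgB (wt t) N y p}) :=
            (mp_sh (G := G) (-p)).measure_preimage hmeas.nullMeasurableSet
        _ ≤ _ := measure_biUnion_finset_le _ _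
    have step2 : ((bxF 0 (N / 2)).card : ℝ≥0∞) * PG G {t | (Adm (wt t) ∧ FB (wt t)) ∧ Br (wt t) 0} ≤
        ((bdy_finite N).toFinset.card : ℝ≥0∞) * ENNReal.ofReal (ε / 12 * N) := by
      calc ((bxF 0 (N / 2)).card : ℝ≥0∞) * PG G {t | (Adm (wt t) ∧ FB (wt t)) ∧ Br (wt t) 0}
          = ∑ p ∈ bxF 0 (N / 2), PG G {t | (Adm (wt t) ∧ FB (wt t)) ∧ Br (wt t) 0} := by
            rw [Finset.sum_const, nsmul_eq_mul]
        _ ≤ ∑ p ∈ bxF 0 (N / 2), ∑ y ∈ (bdy_finite N).toFinset,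
              PG G {t | MrgB (wt t) N y p} := Finset.sum_le_sum step1
        _ = ∑ y ∈ (bdy_finite N).toFinset, ∑ p ∈ bxF 0 (N / 2),
              PG G {t | MrgB (wt t) N y p} := Finset.sum_comm
        _ ≤ ∑ y ∈ (bdy_finite N).toFinset, ENNReal.ofReal (ε / 12 * N) :=
            Finset.sum_le_sum fun y hy => hN1 y ((Set.Finite.mem_toFinset _).1 hy)
        _ = _ := by rw [Finset.sum_const, nsmul_eq_mul]
    have hc1 : (N : ℝ) ^ 2 ≤ ((bxF 0 (N / 2)).card : ℝ) := by
      have h1 := card_bxF_ge (N / 2)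
      have h2 : N ≤ 2 * (N / 2) + 1 := by omega
      have h3 : N ^ 2 ≤ (bxF 0 (N / 2)).card := (Nat.pow_le_pow_left h2 2).trans h1
      exact_mod_cast h3
    have hc2 : ((bdy_finite N).toFinset.card : ℝ) ≤ 12 * N := by
      have h1 := card_bdy_le N
      have h2 : (bdy_finite N).toFinset.card ≤ 12 * N := by omega
      exact_mod_cast h2
    have hNpos : (0 : ℝ) < (N : ℝ) ^ 2 := by
      have : (0 : ℝ) < N := by exact_mod_cast (by omega : 0 < N)
      positivity
    have hfin : PG G {t | (Adm (wt t) ∧ FB (wt t)) ∧ Br (wt t) 0} ≠ ∞ := measure_ne_top _ _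
    obtain ⟨c, hc⟩ : ∃ c : NNReal, PG G {t | (Adm (wt t) ∧ FB (wt t)) ∧ Br (wt t) 0} = c :=
      ⟨_, (ENNReal.coe_toNNReal hfin).symm⟩
    rw [hc] at step2 ⊢
    have step3 : ((bxF 0 (N / 2)).card : ℝ) * c ≤
        ((bdy_finite N).toFinset.card : ℝ) * (ε / 12 * N) := by
      have := ENNReal.toReal_mono (ENNReal.mul_ne_top (by simp) ENNReal.ofReal_ne_top) step2
      rw [ENNReal.toReal_mul, ENNReal.toReal_mul, ENNReal.toReal_ofReal (by positivity)] at this
      simpa using this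
    have : (c : ℝ) ≤ ε := by
      by_contra hcon
      push Not at hcon
      have h1 : (N : ℝ) ^ 2 * c ≤ 12 * N * (ε / 12 * N) := by
        calc (N : ℝ) ^ 2 * c ≤ ((bxF 0 (N / 2)).card : ℝ) * c :=
              mul_le_mul_of_nonneg_right hc1 c.2
          _ ≤ _ := step3
          _ ≤ _ := mul_le_mul_of_nonneg_right hc2 (by positivity)
      have h2 : (N : ℝ) ^ 2 * ε < (N : ℝ) ^ 2 * c := mul_lt_mul_of_pos_left hcon hNpos
      have h3 : 12 * (N : ℝ) * (ε / 12 * N) = (N : ℝ) ^ 2 * ε := by ring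
      linarith
    exact_mod_cast this
  have h0 : ∀ᵐ t ∂PG G, Adm (wt t) ∧ ¬ Br (wt t) 0 := by
    filter_upwards [ae_adm hG, hFB, measure_eq_zero_iff_ae_notMem.1 hzero] with t h1 h1' h2
    exact ⟨h1, fun h => h2 ⟨⟨h1, h1'⟩, h⟩⟩
  filter_upwards [ae_shift h0, ae_adm hG] with t ht hadm p hp
  refine (ht p).2 ?_
  rw [wt_shE, br_sh hadm]
  simpa using hp

end Vale.Agent.P158.C
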