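import Vale.Agent.P158.T1.RobustAE
import Vale.Agent.P158.T1.Raise
import Vale.Agent.P158.T1.Frz
import Vale.Agent.P158.C.Mass
import Vale.Agent.P158.C.Cyc
import Vale.Agent.P158.C.NB

/-! Plan C': definitions and module statements.

Every module is a `Prop`-valued definition `XStmt`; the module file proves it.
No statement here is assumed anywhere: the final theorem is obtained by composing the proofs. -/

namespace Vale.Agent.P158.C

open Filter MeasureTheory Vale.Agent.P158.T1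
open scoped ENNReal

/-! ### Deterministic notions -/

/-- Different paths with the same ends have different weights. -/
def Uq (w : V → V → ℝ) : Prop :=
  ∀ (x y : V) (p q : latt.Walk x y), p.IsPath → q.IsPath → ww w p = ww w q → p = q

/-- Slack `h` at the edge from `v 0` to `v 1`. -/
def SL (h : ℝ) (w : V → V → ℝ) (v : ℤ → V) : Prop :=
  ∀ i j : ℤ, i ≤ 0 → 1 ≤ j → ∀ π : latt.Walk (v i) (v j), s(v 0, v 1) ∉ π.edges →
    T w (v i) (v j) + h ≤ ww w π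

/-- Bigeodesics with slack meet all bigeodesics. -/
def S3 (w : V → V → ℝ) : Prop :=
  ∀ (h : ℝ) (v v' : ℤ → V), 0 < h → IsBi w v → SL h w v → IsBi w v' → ∃ i j, v i = v' j

/-- The vertex `v` is on a geodesic inside `S` from `x` to `y`. -/
def On (w : V → V → ℝ) (S : Set V) (x y v : V) : Prop :=
  v ∈ S ∧ PT w S x v + PT w S v y = PT w S x y

/-- Passage times inside `S` between boundary vertices of `bx z N`. -/
noncomputable def bT (w : V → V → ℝ) (z : V) (N : ℕ) (S : Set V) (x y : ZMod (8 * N)) : ℝ :=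
  PT w S (bd z N (x.val : ℤ)) (bd z N (y.val : ℤ))

/-- Passage times of the box. -/
noncomputable def TN (w : V → V → ℝ) (z : V) (N : ℕ) : ZMod (8 * N) → ZMod (8 * N) → ℝ :=
  bT w z N (bx z N)

/-- Passage times of the box without the window `bx 0 s`. -/
noncomputable def WN (w : V → V → ℝ) (z : V) (N s : ℕ) : ZMod (8 * N) → ZMod (8 * N) → ℝ :=
  bT w z N (bx z N \ bx 0 s)

/-- Sum of the weights along the boundary cycle of the box. -/
noncomputable def rs (w : V → V → ℝ) (z : V) (N : ℕ) : ℝ :=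
  ∑ k ∈ Finset.range (8 * N), w (bd z N (k : ℤ)) (bd z N ((k : ℤ) + 1))

/-- The pair `p` is a line: excess at least `h` when the window `bx 0 s` is avoided, and a
geodesic through `bx 0 r`. -/
def Lin (h : ℝ) (w : V → V → ℝ) (z : V) (N r s : ℕ) (p : ZMod (8 * N) × ZMod (8 * N)) : Prop :=
  h ≤ WN w z N s p.1 p.2 - TN w z N p.1 p.2 ∧
    ∃ v ∈ bx 0 r, On w (bx z N) (bd z N (p.1.val : ℤ)) (bd z N (p.2.val : ℤ)) v

/-- There are `n` lines in different components of `{TN < WN}`. -/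
def Many (h : ℝ) (n : ℕ) (w : V → V → ℝ) (z : V) (N r s : ℕ) : Prop :=
  ∃ I : Finset (ZMod (8 * N) × ZMod (8 * N)), n ≤ I.card ∧ (∀ p ∈ I, Lin h w z N r s p) ∧
    ∀ p ∈ I, ∀ q ∈ I, Cn (Ex (TN w z N) (WN w z N s)) p q → p = q

/-- Long paths through `bx 0 (r + 1)` are more expensive than its boundary cycle. -/
def LenE (C₁ : ℝ) (r : ℕ) (t : Env) : Prop :=
  ∀ (x y : V) (p : latt.Walk x y), p.IsPath → x ∈ bx 0 (r + 1) → C₁ * r ≤ p.length →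
    rs (wt t) 0 (r + 1) < ww (wt t) p

open Classical in
/-- Good box; the condition does not depend on the edges touching `bx 0 s`. -/
def Good (C' C₁ : ℝ) (z : V) (N s : ℕ) (t : Env) : Prop :=
  rs (wt t) z N ≤ C' * N ∧
  ∀ (x y : V) (p : latt.Walk x y), p.IsPath → (∀ v ∈ p.support, v ∈ bx z N) →
    C₁ * N ≤ p.length → C' * N < ∑ e ∈ (pe p).filter (fun e => e ∉ tF 0 s), t e

open Classical in
/-- The pairs of boundary vertices of `bx z N` whose geodesics need the window `bx u s`. -/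
noncomputable def Ef (w : V → V → ℝ) (z : V) (N : ℕ) [NeZero N] (u : V) (s : ℕ) :
    Finset (ZMod (8 * N) × ZMod (8 * N)) :=
  Finset.univ.filter fun p => p ∈ Ex (TN w z N) (bT w z N (bx z N \ bx u s))

/-! ### Deterministic statements -/

/-- (1a) CROSSING LEMMA for the cyclic boundary of a box. -/
def CrossStmt : Prop :=
  ∀ (z : V) (N : ℕ), 0 < N → ∀ a b c d : ℤ, a < b → b < c → c < d → d < a + 8 * N →
    ∀ (p : latt.Walk (bd z N a) (bd z N c)) (q : latt.Walk (bd z N b) (bd z N d)),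
      (∀ v ∈ p.support, v ∈ bx z N) → (∀ v ∈ q.support, v ∈ bx z N) →
      ∃ v, v ∈ p.support ∧ v ∈ q.support

/-- (1b) The boundary ring is connected. -/
def RingConnStmt : Prop :=
  ∀ (z : V) (N : ℕ), 0 < N → ∀ x ∈ bB z N, ∀ y ∈ bB z N, Conn (bB z N) x y

/-- (1c) Four point inequality for the boundary passage times of a box with holes. -/
def KalStmt : Prop :=
  ∀ (w : V → V → ℝ) (z : V) (N : ℕ) (S : Set V), 0 < N → Adm w → S ⊆ bx z N → bB z N ⊆ S →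
    Kal (bT w z N S)

/-- (6) COMPONENT LEMMA for one line. -/
def CLStmt : Prop :=
  ∀ w : V → V → ℝ, Adm w → Uq w → FB w → (∀ p, ¬ Br w p) → S3 w →
  ∀ (h : ℝ) (v : ℤ → V) (r s : ℕ) (C : Finset V), 0 < h → IsBi w v → SL h w v →
    v 0 ∈ bx 0 r → r ≤ s →
    ∃ N₀ : ℕ, ∀ N ≥ N₀, ∀ z ∈ bx 0 (N / 4), ∃ p : ZMod (8 * N) × ZMod (8 * N),
      Lin h w z N r s p ∧
      ∀ q, Cn (Ex (TN w z N) (WN w z N s)) p q → ∀ u ∈ C,
        (On w (bx z N) (bd z N (q.1.val : ℤ)) (bd z N (q.2.val : ℤ)) u ↔ u ∈ Set.range v)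

/-- (8) BUDGET of one box, summed over the position of the window. -/
def UpDetStmt : Prop :=
  ∃ A : ℝ, 0 < A ∧ ∀ (w : V → V → ℝ) (N s : ℕ) (R L : ℝ) [NeZero N], Adm w → 1 ≤ s →
    8 * s ≤ N → 1 ≤ L → rs w 0 N ≤ R →
    (∀ (x y : V) (p : latt.Walk x y), p.IsPath → (∀ v ∈ p.support, v ∈ bx 0 N) →
      L ≤ p.length → R < ww w p) →
    ∑ u ∈ bxF 0 (N / 4), mu (bT w 0 N (bx 0 N \ bx u s)) (Ef w 0 N u s) ≤ A * s * R * L

/-- (10) GAIN: lowering `M` edges of a set of heavy edges of a line. -/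
def GainDetStmt : Prop :=
  ∀ (α β h : ℝ) (M : ℕ) (t' : Env) (z : V) (N r : ℕ) (p : ZMod (8 * N) × ZMod (8 * N)),
    0 < α → α < β → (∀ e, 0 < t' e) → 1 ≤ r → 8 * r + 8 ≤ N → z ∈ bx 0 (N / 4) →
    AG β t' 0 r (2 * r) → Lin h (wt t') z N r (2 * r) p →
    ∃ Q ⊆ tF 0 (2 * r), r ≤ 8 * Q.card ∧ (∀ e ∈ Q, β ≤ t' e) ∧
      ∀ t : Env, Rch α β (tF 0 (2 * r)) t' t → M ≤ cnt α Q t →
        h + M * (β - α) ≤ WN (wt t) z N (2 * r) p.1 p.2 - TN (wt t) z N p.1 p.2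

/-- (11) Measurability of the mass of the heavy components. -/
def MeasHeavyStmt : Prop :=
  ∀ (z : V) (N s : ℕ) [NeZero N] (g : ℝ),
    Measurable fun t : Env => mu (WN (wt t) z N s) (heavy (TN (wt t) z N) (WN (wt t) z N s) g)

/-! ### Probabilistic statements -/

section Prob

variable (G : Measure ℝ) [IsProbabilityMeasure G]

/-- (2) Almost sure uniqueness. -/
def UqStmt : Prop := ∀ᵐ t ∂PG G, Uq (wt t)

/-- (3a) Finite balls. -/
def FBStmt : Prop := ∀ᵐ t ∂PG G, FB (wt t)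

/-- (3b) Long paths through a box are expensive, with probability tending to one. -/
def LenStmt : Prop :=
  ∃ C₁ : ℝ, 0 < C₁ ∧ ∀ δ : ℝ, 0 < δ → ∃ r₀ : ℕ, ∀ r ≥ r₀,
    PG G {t | ¬ LenE C₁ r t} ≤ ENNReal.ofReal δ

/-- (3c) Boxes are good with probability at least `7/8`. -/
def GoodStmt : Prop :=
  ∃ C' C₁ : ℝ, 0 < C' ∧ 0 < C₁ ∧ ∀ s : ℕ, ∃ N₀ : ℕ, ∀ N ≥ N₀, ∀ z ∈ bx 0 (N / 4),
    MeasurableSet {t | Good C' C₁ z N s t} ∧
    PG G {t | ¬ Good C' C₁ z N s t} ≤ 1 / 8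

/-- (3d) Annuli have heavy crossings, with probability tending to one. -/
def AGStmt (β : ℝ) : Prop :=
  ∀ δ : ℝ, 0 < δ → ∃ r₀ : ℕ, ∀ r ≥ r₀, MeasurableSet {t : Env | AG β t 0 r (2 * r)} ∧
    PG G {t | ¬ AG β t 0 r (2 * r)} ≤ ENNReal.ofReal δ

/-- (4) Merges are rare in the bulk, uniformly in the target: the hypothesis of `nb_of_merge`. -/
def MrgStmt : Prop :=
  ∀ ε : ℝ, 0 < ε → ∃ N₀ : ℕ, ∀ N ≥ N₀, ∀ y ∈ bdy N,
    ∑ p ∈ bxF 0 (N / 2), PG G {t | MrgB (wt t) N y p} ≤ ENNReal.ofReal (ε * N)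

/-- (5) Bigeodesics with slack meet all bigeodesics. -/
def S3Stmt : Prop := ∀ᵐ t ∂PG G, S3 (wt t)

/-- (7a) The event that there is a bigeodesic with slack at `0` is measurable up to a null set. -/
def EvStmt : Prop :=
  ∀ h : ℝ, 0 < h → ∃ A : Set Env, MeasurableSet A ∧
    ∀ᵐ t ∂PG G, (t ∈ A ↔ ∃ v : ℤ → V, IsBi (wt t) v ∧ v 0 = 0 ∧ SL h (wt t) v)

/-- (7b) Many lines: if bigeodesics with slack `h` exist, then with probability close to one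
there are at least `c r` lines through `bx 0 r` in different components. -/
def ManyStmt : Prop :=
  ∀ h : ℝ, 0 < h →
    (∀ᵐ t ∂PG G, ¬ ∃ v : ℤ → V, IsBi (wt t) v ∧ v 0 = 0 ∧ SL h (wt t) v) ∨
    ∃ c : ℝ, 0 < c ∧ ∀ δ : ℝ, 0 < δ → ∃ r₀ : ℕ, ∀ r ≥ r₀, ∃ N₀ : ℕ, ∀ N ≥ N₀,
      ∀ z ∈ bx 0 (N / 4), MeasurableSet {t | Many h ⌈c * r⌉₊ (wt t) z N r (2 * r)} ∧
        PG G {t | ¬ Many h ⌈c * r⌉₊ (wt t) z N r (2 * r)} ≤ ENNReal.ofReal δ

/-- (8') BUDGET: for one deterministic position of the window the expected mass is at most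
`C₄ s`. -/
def UpStmt : Prop :=
  ∀ C' C₁ : ℝ, 0 < C' → 0 < C₁ → ∃ C₄ : ℝ, 0 < C₄ ∧ ∀ s : ℕ, 1 ≤ s → ∃ N₀ : ℕ, ∀ N ≥ N₀,
    ∀ _ : NeZero N, ∃ z ∈ bx 0 (N / 4),
      ∫⁻ t in {t | Good C' C₁ z N s t}, ENNReal.ofReal (mu (WN (wt t) z N s) (Ef (wt t) z N 0 s))
        ∂PG G ≤ ENNReal.ofReal (C₄ * s)

/-- (9) LEVELS: laws `P 0 = PG G, …, P k`, each obtained by raising edges touching
`bx 0 (2 * r)`, with an `L²`-type comparison, invariance off the window, and the one step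
inequality for a potential `Φ`. -/
def LevStmt (α β : ℝ) : Prop :=
  ∀ k M : ℕ, ∃ c : ℝ, 0 < c ∧ ∃ A : ℝ≥0∞, A ≠ ∞ ∧ ∀ r : ℕ, 1 ≤ r → c ≤ r →
    ∃ P : ℕ → Measure Env, P 0 = PG G ∧ (∀ i ≤ k, IsProbabilityMeasure (P i)) ∧
    (∀ i ≤ k, ∀ C : Set Env, MeasurableSet C →
      P i C ≤ A * (PG G C) ^ ((1 / 2 : ℝ) ^ k)) ∧
    (∀ i ≤ k, ∀ C : Set Env, MeasurableSet C →
      (∀ t t' : Env, (∀ e, e ∉ tF 0 (2 * r) → t e = t' e) → t ∈ C → t' ∈ C) →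
      P i C = PG G C) ∧
    ∀ i < k, ∀ Φ : Env → ℝ≥0∞, Measurable Φ → ∀ 𝓜 : Set Env, MeasurableSet 𝓜 →
      ∀ (n : ℕ) (h κ : ℝ≥0∞), h ≠ ∞ → κ ≠ ∞ →
      (∀ t' t : Env, Rch α β (tF 0 (2 * r)) t' t → Φ t' ≤ Φ t) →
      (∀ t' ∈ 𝓜, ∃ Q : Fin n → Finset latt.edgeSet,
        (∀ j, Q j ⊆ tF 0 (2 * r) ∧ r ≤ 8 * (Q j).card ∧ ∀ e ∈ Q j, β ≤ t' e) ∧
        ∀ t : Env, Rch α β (tF 0 (2 * r)) t' t →
          Φ t' + h * ({j | M ≤ cnt α (Q j) t} : Set (Fin n)).ncard ≤ Φ t + κ * Φ t') →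
      ∫⁻ t, Φ t ∂P (i + 1) + h * (n / 2) * P (i + 1) 𝓜 ≤
        ∫⁻ t, Φ t ∂P i + κ * ∫⁻ t, Φ t ∂P (i + 1)

/-- Existence of slack: if bigeodesics with slack do not exist, there are no bigeodesics. -/
def SlackStmt : Prop :=
  ∃ h : ℝ, 0 < h ∧
    ((∀ᵐ t ∂PG G, ¬ ∃ v : ℤ → V, IsBi (wt t) v ∧ v 0 = 0 ∧ SL h (wt t) v) →
      ∀ᵐ t ∂PG G, ∀ v : ℤ → V, ¬ IsBi (wt t) v)

end Prob

end Vale.Agent.P158.C
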